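import Vale.Agent.P050.R2.H738.Phi

set_option linter.all false

/-!
# Dense targets: the clean pair bound

`forest_cross`, `forest_weight`: integration of the absolute values of the edges of a connected
piece, vertex by vertex. `gl`: two clean arcs with `k` edges in `L²`, everything else in absolute
value.
-/

open MeasureTheory Finset

namespace Vale.Agent.P050.R2.H738

variable {V : Type*} [Fintype V] [DecidableEq V] {Ω : Type*} [MeasurableSpace Ω]
variable {U : Sym2 Ω → ℝ} {κ : ℝ}
variable (μ : Measure Ω) [IsProbabilityMeasure μ]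

/-- an edge leaving `Y` -/
lemma exists_cross {F : Finset (Sym2 V)} {Y : Finset V} {r x : V} (hr : r ∈ Y) (hx : x ∉ Y)
    (h : (gr F).Reachable r x) : ∃ u ∈ Y, ∃ v, v ∉ Y ∧ s(u, v) ∈ F := by
  obtain ⟨w⟩ := h
  obtain ⟨d, -, h1, h2⟩ := w.exists_boundary_dart (Y : Set V) hr hx
  refine ⟨d.fst, h1, d.snd, h2, ?_⟩
  have := d.adj
  rw [SimpleGraph.fromEdgeSet_adj] at this
  exact this.1

/-- integrating one end of an edge -/
lemma edge_elim (hU : Good U 1) (hκ : ∀ s, ∫ t, |two U s t| ∂μ ≤ κ) {u v : V}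
    (huv : u ≠ v) {R : (V → Ω) → ℝ} (hR : BM R) (hR0 : ∀ z, 0 ≤ R z) (hRi : Ind v R) :
    ∫ z, |U s(z u, z v)| * R z ∂(piM V μ) ≤ κ * ∫ z, R z ∂(piM V μ) := by
  have h1 : BM (fun z : V → Ω => |U s(z u, z v)| * R z) := by
    have := ((hU.bm_edge (V := V) s(u, v)).abs).mul hR
    simpa using this
  rw [integral_update μ v h1, ← integral_const_mul]
  simp only [Function.update_self, Function.update_of_ne huv]
  have hb : BM (fun z : V → Ω => ∫ y, |U s(z u, y)| * R (Function.update z v y) ∂μ) := by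
    have := (h1.comp (measurable_upd v)).integral_right μ
    simpa only [Function.update_self, Function.update_of_ne huv] using this
  refine integral_mono (hb.integrable _) (((BM.const κ).mul hR).integrable _) fun z => ?_
  have h2 : ∀ y, R (Function.update z v y) = R z := fun y => hRi z y
  simp only [h2]
  rw [integral_mul_const]
  exact mul_le_mul_of_nonneg_right (hκ (z u)) (hR0 z)

/-- integration of the edges of `F`, vertex by vertex, starting from `R` -/
theorem forest_cross (hU : Good U 1) (hκ0 : 0 ≤ κ) (hκ : ∀ s, ∫ t, |two U s t| ∂μ ≤ κ)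
    {F : Finset (Sym2 V)} {X R : Finset V}
    (hF : ∀ Y : Finset V, R ⊆ Y → (∃ x ∈ X, x ∉ Y) → ∃ u ∈ Y, ∃ v ∈ X, v ∉ Y ∧ s(u, v) ∈ F)
    {G : (V → Ω) → ℝ} (hG : BM G) (hG0 : ∀ z, 0 ≤ G z) (hGi : ∀ x ∈ X, x ∉ R → Ind x G) :
    ∫ z, G z * |wt U F z| ∂(piM V μ) ≤ κ ^ (X \ R).card * ∫ z, G z ∂(piM V μ) := by
  have key : ∀ n ≤ (X \ R).card, ∃ S ⊆ X \ R, S.card = n ∧
      ∫ z, G z * |wt U (F.filter (fun e => ∀ v ∈ e, v ∈ R ∪ S)) z| ∂(piM V μ) ≤
        κ ^ n * ∫ z, G z ∂(piM V μ) := by
    intro n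
    induction n with
    | zero =>
      intro _
      refine ⟨∅, empty_subset _, card_empty, ?_⟩
      rw [pow_zero, one_mul]
      refine integral_mono ((hG.mul (hU.bm_wt _).abs).integrable _) (hG.integrable _) fun z => ?_
      have h1 := hU.abs_wt_le (F.filter (fun e => ∀ v ∈ e, v ∈ R ∪ ∅)) z
      rw [one_pow] at h1
      calc G z * |wt U (F.filter (fun e => ∀ v ∈ e, v ∈ R ∪ ∅)) z| ≤ G z * 1 :=
            mul_le_mul_of_nonneg_left h1 (hG0 z)
        _ = G z := mul_one _
    | succ n ih =>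
      intro hn
      obtain ⟨S, hS, hc, hb⟩ := ih (by omega)
      obtain ⟨x, hx, hxS⟩ : ∃ x ∈ X \ R, x ∉ S := by
        by_contra hcon
        push Not at hcon
        have := card_le_card (show X \ R ⊆ S from fun x hx => hcon x hx)
        omega
      rw [mem_sdiff] at hx
      obtain ⟨u, hu, v, hv, hvY, he⟩ := hF (R ∪ S) subset_union_left
        ⟨x, hx.1, by rw [mem_union, not_or]; exact ⟨hx.2, hxS⟩⟩
      have hvR : v ∉ R := fun h => hvY (mem_union_left _ h)
      have hvS : v ∉ S := fun h => hvY (mem_union_right _ h)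
      have huv : u ≠ v := fun h => hvY (h ▸ hu)
      refine ⟨insert v S, ?_, ?_, ?_⟩
      · intro y hy
        rcases mem_insert.mp hy with rfl | hy
        · exact mem_sdiff.mpr ⟨hv, hvR⟩
        · exact hS hy
      · rw [card_insert_of_notMem hvS, hc]
      · set F1 := F.filter (fun e => ∀ v ∈ e, v ∈ R ∪ S) with hF1
        set F2 := F.filter (fun e => ∀ w ∈ e, w ∈ R ∪ insert v S) with hF2
        have hin : Ind v (wt U F1 : (V → Ω) → ℝ) := by
          apply wt_ind
          intro hs
          obtain ⟨e, he1, he2⟩ := mem_supp.mp hs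
          exact hvY ((mem_filter.mp he1).2 v he2)
        have hsub : insert s(u, v) F1 ⊆ F2 := by
          intro e hmem
          rcases mem_insert.mp hmem with rfl | hmem
          · refine mem_filter.mpr ⟨he, ?_⟩
            intro w hw
            rcases Sym2.mem_iff.mp hw with rfl | rfl
            · rcases mem_union.mp hu with h | h
              · exact mem_union_left _ h
              · exact mem_union_right _ (mem_insert_of_mem h)
            · exact mem_union_right _ (mem_insert_self _ _)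
          · obtain ⟨h1, h2⟩ := mem_filter.mp hmem
            refine mem_filter.mpr ⟨h1, fun w hw => ?_⟩
            rcases mem_union.mp (h2 w hw) with h | h
            · exact mem_union_left _ h
            · exact mem_union_right _ (mem_insert_of_mem h)
        have hnot : s(u, v) ∉ F1 := by
          intro h
          exact hvY ((mem_filter.mp h).2 v (Sym2.mem_mk_right u v))
        have hle : ∀ z : V → Ω, |wt U F2 z| ≤ |U s(z u, z v)| * |wt U F1 z| := by
          intro z
          have h1 : wt U F2 z = wt U (F2 \ insert s(u, v) F1) z * wt U (insert s(u, v) F1) z := by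
            unfold wt
            rw [prod_sdiff hsub]
          have h2 : wt U (insert s(u, v) F1) z = U s(z u, z v) * wt U F1 z := by
            unfold wt
            rw [prod_insert hnot]
            rfl
          have h3 := hU.abs_wt_le (F2 \ insert s(u, v) F1) z
          rw [one_pow] at h3
          rw [h1, h2, abs_mul, abs_mul]
          calc _ ≤ 1 * (|U s(z u, z v)| * |wt U F1 z|) :=
                mul_le_mul_of_nonneg_right h3 (mul_nonneg (abs_nonneg _) (abs_nonneg _))
            _ = _ := one_mul _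
        have hGw : BM (fun z => G z * |wt U F1 z|) := hG.mul (hU.bm_wt _).abs
        have hedge : BM (fun z : V → Ω => |U s(z u, z v)| * (G z * |wt U F1 z|)) := by
          have := ((hU.bm_edge (V := V) s(u, v)).abs).mul hGw
          simpa using this
        calc ∫ z, G z * |wt U F2 z| ∂(piM V μ)
            ≤ ∫ z, |U s(z u, z v)| * (G z * |wt U F1 z|) ∂(piM V μ) := by
              refine integral_mono ((hG.mul (hU.bm_wt _).abs).integrable _)
                (hedge.integrable _) fun z => ?_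
              calc G z * |wt U F2 z| ≤ G z * (|U s(z u, z v)| * |wt U F1 z|) :=
                    mul_le_mul_of_nonneg_left (hle z) (hG0 z)
                _ = _ := by ring
          _ ≤ κ * ∫ z, G z * |wt U F1 z| ∂(piM V μ) := by
              refine edge_elim μ hU hκ huv hGw (fun z => mul_nonneg (hG0 z) (abs_nonneg _)) ?_
              intro z y
              show G (Function.update z v y) * |wt U F1 (Function.update z v y)| = G z * |wt U F1 z|
              rw [hGi v hv hvR z y, hin z y]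
          _ ≤ κ * (κ ^ n * ∫ z, G z ∂(piM V μ)) := mul_le_mul_of_nonneg_left hb hκ0
          _ = κ ^ (n + 1) * ∫ z, G z ∂(piM V μ) := by ring
  obtain ⟨S, hS, hc, hb⟩ := key _ le_rfl
  refine le_trans ?_ hb
  refine integral_mono ((hG.mul (hU.bm_wt _).abs).integrable _)
    ((hG.mul (hU.bm_wt _).abs).integrable _) fun z => mul_le_mul_of_nonneg_left ?_ (hG0 z)
  set F1 := F.filter (fun e => ∀ v ∈ e, v ∈ R ∪ S) with hF1
  have h1 : wt U F z = wt U (F \ F1) z * wt U F1 z := by
    unfold wt
    rw [prod_sdiff (filter_subset _ _)]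
  have h3 := hU.abs_wt_le (F \ F1) z
  rw [one_pow] at h3
  rw [h1, abs_mul]
  calc _ ≤ 1 * |wt U F1 z| := mul_le_mul_of_nonneg_right h3 (abs_nonneg _)
    _ = _ := one_mul _

/-- weighted forest bound: `F` has its ends in `X` and every vertex of `X` is reachable from
`R ⊆ X` -/
theorem forest_weight (hU : Good U 1) (hκ0 : 0 ≤ κ) (hκ : ∀ s, ∫ t, |two U s t| ∂μ ≤ κ)
    {F : Finset (Sym2 V)} {X R : Finset V} (hFX : ∀ e ∈ F, ∀ v ∈ e, v ∈ X)
    (hF : ∀ x ∈ X, ∃ r ∈ R, (gr F).Reachable r x)
    {G : (V → Ω) → ℝ} (hG : BM G) (hG0 : ∀ z, 0 ≤ G z) (hGi : ∀ x ∈ X, x ∉ R → Ind x G) :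
    ∫ z, G z * |wt U F z| ∂(piM V μ) ≤ κ ^ (X \ R).card * ∫ z, G z ∂(piM V μ) := by
  refine forest_cross μ hU hκ0 hκ ?_ hG hG0 hGi
  rintro Y hY ⟨x, hx, hxY⟩
  obtain ⟨r, hr, hrx⟩ := hF x hx
  obtain ⟨u, hu, v, hv, he⟩ := exists_cross (hY hr) hxY hrx
  exact ⟨u, hu, v, hFX _ he v (Sym2.mem_mk_right u v), hv, he⟩

/-- the clean pair bound, general form: one-body decorations `h v` bounded by `β v` on the two
arcs, any bounded function `R` of the other coordinates -/
theorem gl_gen (hU : Good U 1) (hκ0 : 0 ≤ κ) (hκ : ∀ s, ∫ t, |two U s t| ∂μ ≤ κ)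
    {k : ℕ} {a m m' b : V} {p q : List V} (hp : p.length + 1 = k) (hq : q.length + 1 = k)
    (nd : (p ++ q).Nodup) (ham : a ≠ m) (hmb : m' ≠ b)
    {X : Finset V} (haX : a ∈ X) (hmX : m ∈ X) (hmX' : m' ∈ X) (hbX : b ∈ X)
    (hpX : ∀ v ∈ p, v ∉ X) (hqX : ∀ v ∈ q, v ∉ X)
    {F : Finset (Sym2 V)} (hF : ∀ e ∈ F, ∀ v ∈ e, v ∈ X)
    (hr1 : ∀ x ∈ X, ∃ r ∈ ({a, m} : Finset V), (gr F).Reachable r x)
    (hr2 : ∀ x ∈ X, ∃ r ∈ ({m', b} : Finset V), (gr F).Reachable r x)
    {h : V → Ω → ℝ} {β : V → ℝ} (hh : ∀ v, BM (h v)) (hβ : ∀ v, 0 < β v)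
    (hh1 : ∀ v s, |h v s| ≤ β v)
    {R : (V → Ω) → ℝ} {C : ℝ} (hR : BM R) (hC0 : 0 ≤ C) (hC : ∀ z, |R z| ≤ C)
    (hRi : ∀ u ∈ p ++ q, Ind u R) :
    |∫ z, pathProd U (fun v _ y => h v y) a p m z * (pathProd U (fun v _ y => h v y) m' q b z *
        (wt U F z * R z)) ∂(piM V μ)| ≤
      (p.map β).prod * (q.map β).prod * C * (κ ^ (X.card - 2) * ck μ U k) := by
  set D : V → (V → Ω) → Ω → ℝ := fun v _ y => h v y with hDdef
  have hD : ∀ v, BM (fun r : (V → Ω) × Ω => D v r.1 r.2) := fun v =>
    (hh v).comp (g := fun r : (V → Ω) × Ω => r.2) measurable_snd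
  have hDi : ∀ v u, Ind u (D v) := fun v u x y => rfl
  rw [List.nodup_append] at nd
  obtain ⟨hpn, hqn, hpq⟩ := nd
  have hap : a ∉ p := fun hm => hpX a hm haX
  have hmp : m ∉ p := fun hm => hpX m hm hmX
  have hmq' : m' ∉ q := fun hm => hqX m' hm hmX'
  have hbq : b ∉ q := fun hm => hqX b hm hbX
  have hmp' : m' ∉ p := fun hm => hpX m' hm hmX'
  have hbp : b ∉ p := fun hm => hpX b hm hbX
  have haq : a ∉ q := fun hm => hqX a hm haX
  have hmq : m ∉ q := fun hm => hqX m hm hmX
  have nd1 : (a :: p ++ [m]).Nodup := by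
    simp only [List.cons_append, List.nodup_cons, List.nodup_append, List.mem_append,
      List.mem_singleton, List.nodup_singleton, not_or]
    exact ⟨⟨hap, ham⟩, hpn, ⟨List.not_mem_nil, List.nodup_nil⟩,
      fun u hu v hv huv => hmp (by rw [← hv, ← huv]; exact hu)⟩
  have nd2 : (m' :: q ++ [b]).Nodup := by
    simp only [List.cons_append, List.nodup_cons, List.nodup_append, List.mem_append,
      List.mem_singleton, List.nodup_singleton, not_or]
    exact ⟨⟨hmq', hmb⟩, hqn, ⟨List.not_mem_nil, List.nodup_nil⟩,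
      fun u hu v hv huv => hbq (by rw [← hv, ← huv]; exact hu)⟩
  set K1 : (V → Ω) → ℝ := fun x => kern μ (two U) (p.map (fun v => D v x)) (x a) (x m) with hK1
  set K2 : (V → Ω) → ℝ := fun x => kern μ (two U) (q.map (fun v => D v x)) (x m') (x b) with hK2
  have hK1bm : BM K1 := (bm_kern μ hU hD p).comp
    (g := fun x : V → Ω => (x, (x a, x m))) (by fun_prop)
  have hK2bm : BM K2 := (bm_kern μ hU hD q).comp
    (g := fun x : V → Ω => (x, (x m', x b))) (by fun_prop)
  have hK1i : ∀ u, u ≠ a → u ≠ m → Ind u K1 := by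
    intro u h1 h2 x y
    simp only [hK1, Function.update_of_ne h1.symm, Function.update_of_ne h2.symm]
    rfl
  have hK2i : ∀ u, u ≠ m' → u ≠ b → Ind u K2 := by
    intro u h1 h2 x y
    simp only [hK2, Function.update_of_ne h1.symm, Function.update_of_ne h2.symm]
    rfl
  have hwi : ∀ u, u ∉ X → Ind u (wt U F : (V → Ω) → ℝ) := by
    intro u hu
    apply wt_ind
    intro hs
    obtain ⟨e, he, hue⟩ := mem_supp.mp hs
    exact hu (hF e he u hue)
  have hw : ∫ z, pathProd U D a p m z * (pathProd U D m' q b z * (wt U F z * R z)) ∂(piM V μ) =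
      ∫ x, K2 x * (K1 x * (wt U F x * R x)) ∂(piM V μ) := by
    rw [path_elim μ hU hD p a m (fun x => pathProd U D m' q b x * (wt U F x * R x))
      ((bm_pathProd hU hD q m' b).mul ((hU.bm_wt F).mul hR)) nd1]
    · have : ∀ x, kern μ (two U) (p.map (fun v => D v x)) (x a) (x m) *
          (pathProd U D m' q b x * (wt U F x * R x)) =
          pathProd U D m' q b x * (K1 x * (wt U F x * R x)) := by
        intro x; simp only [hK1]; ring
      simp only [this]
      rw [path_elim μ hU hD q m' b (fun x => K1 x * (wt U F x * R x))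
        (hK1bm.mul ((hU.bm_wt F).mul hR)) nd2]
      · intro u hu x y
        have e1 := hK1i u (fun e => haq (e ▸ hu)) (fun e => hmq (e ▸ hu)) x y
        have e2 := hwi u (hqX u hu) x y
        have e3 := hRi u (List.mem_append_right _ hu) x y
        show K1 _ * (wt U F _ * R _) = _
        rw [e1, e2, e3]
      · intro v hv u hu
        exact hDi v u
    · intro u hu x y
      have e1 : pathProd U D m' q b (Function.update x u y) = pathProd U D m' q b x := by
        apply pathProd_ind q m' b (fun v hv => hDi v u)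
        intro hmem
        simp only [List.cons_append, List.mem_cons, List.mem_append, List.mem_singleton,
          List.not_mem_nil, or_false] at hmem
        rcases hmem with hh | hh | hh
        · subst hh; exact hmp' hu
        · exact hpq u hu u hh rfl
        · subst hh; exact hbp hu
      have e2 := hwi u (hpX u hu) x y
      have e3 := hRi u (List.mem_append_left _ hu) x y
      show pathProd U D m' q b _ * (wt U F _ * R _) = _
      rw [e1, e2, e3]
    · intro v hv u hu
      exact hDi v u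
  set b1 := (p.map β).prod with hb1d
  set b2 := (q.map β).prod with hb2d
  have hb1p : 0 < b1 := List.prod_pos (by
    intro a ha
    rw [List.mem_map] at ha
    obtain ⟨v, _, rfl⟩ := ha
    exact hβ v)
  have hb2p : 0 < b2 := List.prod_pos (by
    intro a ha
    rw [List.mem_map] at ha
    obtain ⟨v, _, rfl⟩ := ha
    exact hβ v)
  set c := κ ^ (X.card - 2) with hc
  have hc0 : 0 ≤ c := pow_nonneg hκ0 _
  have hq1 : ∫ x, K1 x ^ 2 * |wt U F x| ∂(piM V μ) ≤ c * (b1 ^ 2 * ck μ U k) := by
    have h1 := forest_weight μ hU hκ0 hκ hF hr1 (hK1bm.pow 2) (fun z => sq_nonneg _)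
      (by
        intro x hx hxr z y
        rw [mem_insert, mem_singleton, not_or] at hxr
        show K1 _ ^ 2 = _
        rw [hK1i x hxr.1 hxr.2 z y])
    have h2 := int_kern_sq_le μ hU hD p ham (fun v hv => hDi v a)
      (fun v hv => hDi v m) β (fun v _ => hβ v) (fun v _ _ s => hh1 v s)
    rw [hp] at h2
    have h3 : (X \ {a, m}).card = X.card - 2 := by
      rw [card_sdiff_of_subset (by
        intro y hy
        rcases mem_insert.mp hy with rfl | hy
        · exact haX
        · rw [mem_singleton.mp hy]; exact hmX), card_pair ham]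
    rw [h3] at h1
    exact h1.trans (mul_le_mul_of_nonneg_left h2 hc0)
  have hq2 : ∫ x, K2 x ^ 2 * |wt U F x| ∂(piM V μ) ≤ c * (b2 ^ 2 * ck μ U k) := by
    have h1 := forest_weight μ hU hκ0 hκ hF hr2 (hK2bm.pow 2) (fun z => sq_nonneg _)
      (by
        intro x hx hxr z y
        rw [mem_insert, mem_singleton, not_or] at hxr
        show K2 _ ^ 2 = _
        rw [hK2i x hxr.1 hxr.2 z y])
    have h2 := int_kern_sq_le μ hU hD q hmb (fun v hv => hDi v m')
      (fun v hv => hDi v b) β (fun v _ => hβ v) (fun v _ _ s => hh1 v s)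
    rw [hq] at h2
    have h3 : (X \ {m', b}).card = X.card - 2 := by
      rw [card_sdiff_of_subset (by
        intro y hy
        rcases mem_insert.mp hy with rfl | hy
        · exact hmX'
        · rw [mem_singleton.mp hy]; exact hbX), card_pair hmb]
    rw [h3] at h1
    exact h1.trans (mul_le_mul_of_nonneg_left h2 hc0)
  rw [hw]
  have hpt : ∀ x, |K2 x * (K1 x * (wt U F x * R x))| ≤
      C * (1 / 2 * (b2 / b1 * (K1 x ^ 2 * |wt U F x|) + b1 / b2 * (K2 x ^ 2 * |wt U F x|))) := by
    intro x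
    have h1 : |K2 x * K1 x| ≤
        1 / 2 * (b2 / b1 * K1 x ^ 2 + b1 / b2 * K2 x ^ 2) := by
      have ht : 0 < b2 / b1 := div_pos hb2p hb1p
      set t := b2 / b1 with htdef
      have ht' : b1 / b2 = t⁻¹ := by rw [htdef, inv_div]
      rw [ht', abs_mul]
      have h2 : 0 ≤ t * (|K1 x| - t⁻¹ * |K2 x|) ^ 2 := by (clear * - ht; positivity)
      have h3 : t * (|K1 x| - t⁻¹ * |K2 x|) ^ 2 =
          t * |K1 x| ^ 2 + t⁻¹ * |K2 x| ^ 2 - 2 * (|K2 x| * |K1 x|) := by
        field_simp
        ring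
      rw [h3, sq_abs, sq_abs] at h2
      linarith only [h2]
    calc |K2 x * (K1 x * (wt U F x * R x))| = |R x| * (|K2 x * K1 x| * |wt U F x|) := by
          rw [← abs_mul, ← abs_mul]; congr 1; ring
      _ ≤ C * ((1 / 2 * (b2 / b1 * K1 x ^ 2 + b1 / b2 * K2 x ^ 2)) * |wt U F x|) :=
          mul_le_mul (hC x) (mul_le_mul_of_nonneg_right h1 (abs_nonneg _))
            (mul_nonneg (abs_nonneg _) (abs_nonneg _)) hC0
      _ = _ := by ring
  have hbmR : BM (fun x : V → Ω =>
      C * (1 / 2 * (b2 / b1 * (K1 x ^ 2 * |wt U F x|) + b1 / b2 * (K2 x ^ 2 * |wt U F x|)))) :=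
    (BM.const _).mul ((BM.const _).mul
      (((BM.const _).mul ((hK1bm.pow 2).mul (hU.bm_wt F).abs)).add
        ((BM.const _).mul ((hK2bm.pow 2).mul (hU.bm_wt F).abs))))
  calc |∫ x, K2 x * (K1 x * (wt U F x * R x)) ∂(piM V μ)|
      ≤ ∫ x, |K2 x * (K1 x * (wt U F x * R x))| ∂(piM V μ) := abs_integral_le_integral_abs
    _ ≤ ∫ x, C * (1 / 2 * (b2 / b1 * (K1 x ^ 2 * |wt U F x|) +
          b1 / b2 * (K2 x ^ 2 * |wt U F x|))) ∂(piM V μ) :=
        integral_mono (((hK2bm.mul (hK1bm.mul ((hU.bm_wt F).mul hR))).abs).integrable _)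
          (hbmR.integrable _) hpt
    _ = C * (1 / 2 * (b2 / b1 * ∫ x, K1 x ^ 2 * |wt U F x| ∂(piM V μ) +
          b1 / b2 * ∫ x, K2 x ^ 2 * |wt U F x| ∂(piM V μ))) := by
        rw [integral_const_mul, integral_const_mul, integral_add, integral_const_mul,
          integral_const_mul]
        · exact ((BM.const _).mul ((hK1bm.pow 2).mul (hU.bm_wt F).abs)).integrable _
        · exact ((BM.const _).mul ((hK2bm.pow 2).mul (hU.bm_wt F).abs)).integrable _
    _ ≤ C * (1 / 2 * (b2 / b1 * (c * (b1 ^ 2 * ck μ U k)) +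
          b1 / b2 * (c * (b2 ^ 2 * ck μ U k)))) := by
        have h1 : 0 ≤ b2 / b1 := (div_pos hb2p hb1p).le
        have h2 : 0 ≤ b1 / b2 := (div_pos hb1p hb2p).le
        (clear * - hq1 h1 hq2 h2 hC0; gcongr)
    _ = b1 * b2 * C * (c * ck μ U k) := by
        have h1 := hb1p.ne'
        have h2 := hb2p.ne'
        field_simp
        ring

/-- the clean pair bound: two arcs with `k` edges, all other edges `F` and the one-body functions
`h` in absolute value; `X` = the vertices outside the interiors of the arcs -/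
theorem gl (hU : Good U 1) (hκ0 : 0 ≤ κ) (hκ : ∀ s, ∫ t, |two U s t| ∂μ ≤ κ)
    {k : ℕ} {a m m' b : V} {p q : List V} (hp : p.length + 1 = k) (hq : q.length + 1 = k)
    (nd : (p ++ q).Nodup) (ham : a ≠ m) (hmb : m' ≠ b)
    {X : Finset V} (haX : a ∈ X) (hmX : m ∈ X) (hmX' : m' ∈ X) (hbX : b ∈ X)
    (hpX : ∀ v ∈ p, v ∉ X) (hqX : ∀ v ∈ q, v ∉ X)
    {F : Finset (Sym2 V)} (hF : ∀ e ∈ F, ∀ v ∈ e, v ∈ X)
    (hr1 : ∀ x ∈ X, ∃ r ∈ ({a, m} : Finset V), (gr F).Reachable r x)
    (hr2 : ∀ x ∈ X, ∃ r ∈ ({m', b} : Finset V), (gr F).Reachable r x)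
    {h : V → Ω → ℝ} (hh : ∀ v, BM (h v)) (hh1 : ∀ v s, |h v s| ≤ 1) :
    |∫ z, pathProd U (fun v _ y => h v y) a p m z * (pathProd U (fun v _ y => h v y) m' q b z *
        (wt U F z * ∏ x ∈ X, h x (z x))) ∂(piM V μ)| ≤ κ ^ (X.card - 2) * ck μ U k := by
  have key := gl_gen μ hU hκ0 hκ hp hq nd ham hmb haX hmX hmX' hbX hpX hqX hF hr1 hr2
    (h := h) (β := fun _ => 1) hh (fun _ => one_pos) hh1
    (R := fun z => ∏ x ∈ X, h x (z x)) (C := 1)
    (BM.finprod X fun x _ => (hh x).comp (measurable_pi_apply x)) zero_le_one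
    (by
      intro z
      rw [Finset.abs_prod]
      exact Finset.prod_le_one (fun _ _ => abs_nonneg _) fun x _ => hh1 x (z x))
    (by
      intro u hu z y
      refine Finset.prod_congr rfl fun x hx => ?_
      have : x ≠ u := by
        rintro rfl
        rcases List.mem_append.mp hu with h | h
        · exact hpX x h hx
        · exact hqX x h hx
      rw [Function.update_of_ne this])
  have e : ∀ l : List V, (l.map (fun _ : V => (1:ℝ))).prod = 1 := by
    intro l; simp
  rw [e, e, one_mul, one_mul, one_mul] at key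
  exact key

end Vale.Agent.P050.R2.H738
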