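import Vale.Agent.P050.R2.H738.Phi

set_option linter.all false

/-!
# Dense targets: the base case of the path expansion

`two_path`: the Cauchy-Schwarz bound for two decorated paths meeting at `m`.
`base_case`: the bound for a state whose path has `2 k` edges.
-/

open MeasureTheory Finset

namespace Vale.Agent.P050.R2.H738

variable {V : Type*} [Fintype V] [DecidableEq V] {Ω : Type*} [MeasurableSpace Ω]
variable {U : Sym2 Ω → ℝ} {ε : ℝ}
variable (μ : Measure Ω) [IsProbabilityMeasure μ]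

/-- the two-path bound -/
theorem two_path (hU : Good U ε) {k : ℕ} {h m z : V} {p1 p2 : List V}
    {D : V → (V → Ω) → Ω → ℝ} {R : (V → Ω) → ℝ} {β : V → ℝ} {C : ℝ}
    (hk1 : p1.length + 1 = k) (hk2 : p2.length + 1 = k)
    (hD : ∀ v, BM (fun q : (V → Ω) × Ω => D v q.1 q.2))
    (hR : BM R) (hC : ∀ x, |R x| ≤ C)
    (nd1 : (h :: p1 ++ [m]).Nodup) (nd2 : (m :: p2 ++ [z]).Nodup)
    (hdisj : ∀ u ∈ p1, u ∉ p2) (hzp : z ∉ p1) (hhp : h ∉ p2)
    (hi1 : ∀ v ∈ p1, ∀ u ∈ h :: p1 ++ m :: p2, Ind u (D v))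
    (hi2 : ∀ v ∈ p2, ∀ u ∈ p1 ++ m :: p2 ++ [z], Ind u (D v))
    (hRi : ∀ u ∈ p1 ++ p2, Ind u R)
    (hβ : ∀ v, 0 < β v)
    (hb1 : ∀ v ∈ p1, ∀ x y, |D v x y| ≤ β v) (hb2 : ∀ v ∈ p2, ∀ x y, |D v x y| ≤ β v) :
    |∫ x, pathProd U D h p1 m x * (pathProd U D m p2 z x * R x) ∂(piM V μ)| ≤
      (p1.map β).prod * (p2.map β).prod * C * ck μ U k := by
  have hhm : h ≠ m := by
    intro e; subst e; simp at nd1
  have hmz : m ≠ z := by
    intro e; subst e; simp at nd2
  have hmp1 : m ∉ p1 := by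
    intro e
    rw [List.nodup_append] at nd1
    exact nd1.2.2 m (List.mem_cons_of_mem _ e) m (by simp) rfl
  have hmp2 : m ∉ p2 := by
    intro e
    have := (List.nodup_cons.mp nd2).1
    exact this (List.mem_append_left _ e)
  have hhp1 : h ∉ p1 := by
    intro e
    have := (List.nodup_cons.mp nd1).1
    exact this (List.mem_append_left _ e)
  have hzp2 : z ∉ p2 := by
    intro e
    rw [List.nodup_append] at nd2
    exact nd2.2.2 z (List.mem_cons_of_mem _ e) z (by simp) rfl
  set K1 : (V → Ω) → ℝ := fun x => kern μ (two U) (p1.map (fun v => D v x)) (x h) (x m) with hK1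
  set K2 : (V → Ω) → ℝ := fun x => kern μ (two U) (p2.map (fun v => D v x)) (x m) (x z) with hK2
  have hK1bm : BM K1 := (bm_kern μ hU hD p1).comp
    (g := fun x : V → Ω => (x, (x h, x m))) (by fun_prop)
  have hK2bm : BM K2 := (bm_kern μ hU hD p2).comp
    (g := fun x : V → Ω => (x, (x m, x z))) (by fun_prop)
  have hw : ∫ x, pathProd U D h p1 m x * (pathProd U D m p2 z x * R x) ∂(piM V μ) =
      ∫ x, K2 x * (K1 x * R x) ∂(piM V μ) := by
    rw [path_elim μ hU hD p1 h m (fun x => pathProd U D m p2 z x * R x)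
      ((bm_pathProd hU hD p2 m z).mul hR) nd1]
    · have : ∀ x, kern μ (two U) (p1.map (fun v => D v x)) (x h) (x m) *
          (pathProd U D m p2 z x * R x) =
          pathProd U D m p2 z x * (K1 x * R x) := by
        intro x; simp only [hK1]; ring
      simp only [this]
      rw [path_elim μ hU hD p2 m z (fun x => K1 x * R x) (hK1bm.mul hR) nd2]
      · intro u hu x y
        have hhu : h ≠ u := fun e => hhp (e ▸ hu)
        have hmu : m ≠ u := fun e => hmp2 (e ▸ hu)
        have e1 : p1.map (fun v => D v (Function.update x u y)) = p1.map (fun v => D v x) := by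
          apply List.map_congr_left
          intro v hv
          exact hi1 v hv u (by simp [hu]) x y
        have e2 : R (Function.update x u y) = R x := hRi u (by simp [hu]) x y
        simp only [hK1, e1, e2, Function.update_of_ne hhu, Function.update_of_ne hmu]
      · intro v hv u hu
        exact hi2 v hv u (by simp [hu])
    · intro u hu x y
      have e1 : pathProd U D m p2 z (Function.update x u y) = pathProd U D m p2 z x := by
        apply pathProd_ind p2 m z (fun v hv => hi2 v hv u (by simp [hu]))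
        intro hmem
        simp only [List.cons_append, List.mem_cons, List.mem_append, List.mem_singleton,
          List.not_mem_nil, or_false] at hmem
        rcases hmem with hh | hh | hh
        · subst hh; exact hmp1 hu
        · exact hdisj u hu hh
        · subst hh; exact hzp hu
      have e2 : R (Function.update x u y) = R x := hRi u (by simp [hu]) x y
      simp only [e1, e2]
    · intro v hv u hu
      exact hi1 v hv u (by simp [hu])
  set b1 := (p1.map β).prod with hb1d
  set b2 := (p2.map β).prod with hb2d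
  have hb1p : 0 < b1 := List.prod_pos (by
    intro a ha
    rw [List.mem_map] at ha
    obtain ⟨v, _, rfl⟩ := ha
    exact hβ v)
  have hb2p : 0 < b2 := List.prod_pos (by
    intro a ha
    rw [List.mem_map] at ha
    obtain ⟨v, _, rfl⟩ := ha
    exact hβ v)
  have hq1 : ∫ x, K1 x ^ 2 ∂(piM V μ) ≤ b1 ^ 2 * ck μ U k := by
    have := int_kern_sq_le μ hU hD p1 hhm (fun v hv => hi1 v hv h (by simp))
      (fun v hv => hi1 v hv m (by simp)) β (fun v _ => hβ v) hb1
    rw [hk1] at this
    exact this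
  have hq2 : ∫ x, K2 x ^ 2 ∂(piM V μ) ≤ b2 ^ 2 * ck μ U k := by
    have := int_kern_sq_le μ hU hD p2 hmz (fun v hv => hi2 v hv m (by simp))
      (fun v hv => hi2 v hv z (by simp)) β (fun v _ => hβ v) hb2
    rw [hk2] at this
    exact this
  have hC0 : 0 ≤ C ∨ IsEmpty (V → Ω) := by
    by_cases hne : Nonempty (V → Ω)
    · obtain ⟨x⟩ := hne
      exact Or.inl ((abs_nonneg _).trans (hC x))
    · exact Or.inr (not_nonempty_iff.mp hne)
  rcases hC0 with hC0 | hemp
  swap
  · exfalso
    have h1 : (piM V μ) Set.univ = 1 := measure_univ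
    rw [Measure.eq_zero_of_isEmpty (piM V μ)] at h1
    simp at h1
  rw [hw]
  have hpt : ∀ x, |K2 x * (K1 x * R x)| ≤
      C * (1 / 2 * (b2 / b1 * K1 x ^ 2 + b1 / b2 * K2 x ^ 2)) := by
    intro x
    have h1 : |K2 x * K1 x| ≤
        1 / 2 * (b2 / b1 * K1 x ^ 2 + b1 / b2 * K2 x ^ 2) := by
      have ht : 0 < b2 / b1 := div_pos hb2p hb1p
      set t := b2 / b1 with htdef
      have ht' : b1 / b2 = t⁻¹ := by rw [htdef, inv_div]
      rw [ht', abs_mul]
      have h2 : 0 ≤ t * (|K1 x| - t⁻¹ * |K2 x|) ^ 2 := by (clear * - ht; positivity)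
      have h3 : t * (|K1 x| - t⁻¹ * |K2 x|) ^ 2 =
          t * |K1 x| ^ 2 + t⁻¹ * |K2 x| ^ 2 - 2 * (|K2 x| * |K1 x|) := by
        field_simp
        ring
      rw [h3, sq_abs, sq_abs] at h2
      linarith only [h2]
    calc |K2 x * (K1 x * R x)| = |R x| * |K2 x * K1 x| := by
          rw [← abs_mul]; congr 1; ring
      _ ≤ _ := mul_le_mul (hC x) h1 (abs_nonneg _) hC0
  have hbmR : BM (fun x : V → Ω =>
      C * (1 / 2 * (b2 / b1 * K1 x ^ 2 + b1 / b2 * K2 x ^ 2))) :=
    (BM.const _).mul ((BM.const _).mul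
      (((BM.const _).mul (hK1bm.pow 2)).add ((BM.const _).mul (hK2bm.pow 2))))
  calc |∫ x, K2 x * (K1 x * R x) ∂(piM V μ)|
      ≤ ∫ x, |K2 x * (K1 x * R x)| ∂(piM V μ) := abs_integral_le_integral_abs
    _ ≤ ∫ x, C * (1 / 2 * (b2 / b1 * K1 x ^ 2 + b1 / b2 * K2 x ^ 2)) ∂(piM V μ) :=
        integral_mono (((hK2bm.mul (hK1bm.mul hR)).abs).integrable _)
          (hbmR.integrable _) hpt
    _ = C * (1 / 2 * (b2 / b1 * ∫ x, K1 x ^ 2 ∂(piM V μ) +
          b1 / b2 * ∫ x, K2 x ^ 2 ∂(piM V μ))) := by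
        rw [integral_const_mul, integral_const_mul, integral_add, integral_const_mul,
          integral_const_mul]
        · exact ((BM.const _).mul (hK1bm.pow 2)).integrable _
        · exact ((BM.const _).mul (hK2bm.pow 2)).integrable _
    _ ≤ C * (1 / 2 * (b2 / b1 * (b1 ^ 2 * ck μ U k) +
          b1 / b2 * (b2 ^ 2 * ck μ U k))) := by
        have h1 : 0 ≤ b2 / b1 := (div_pos hb2p hb1p).le
        have h2 : 0 ≤ b1 / b2 := (div_pos hb1p hb2p).le
        (clear * - hq1 h1 hq2 h2 hC0; gcongr)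
    _ = b1 * b2 * C * ck μ U k := by
        have h1 := hb1p.ne'
        have h2 := hb2p.ne'
        field_simp
        ring

/-! ### distributing the factors `Phi (S b)` over the path -/

/-- splitting a product over `G` according to the vertices of a list -/
lemma prod_split {M : Type*} [CommMonoid M] (G : Finset V) (S : V → Finset V) (f : V → M)
    (L : List V) (hnd : L.Nodup)
    (hL : ∀ b ∈ G, ∀ u ∈ L, ∀ v ∈ L, u ∈ S b → v ∈ S b → u = v) :
    ∏ b ∈ G, f b = (L.map (fun v => ∏ b ∈ G.filter (fun b => v ∈ S b), f b)).prod *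
      ∏ b ∈ G.filter (fun b => ∀ v ∈ L, v ∉ S b), f b := by
  induction L with
  | nil => simp
  | cons v L ih =>
    rw [List.nodup_cons] at hnd
    have h1 := ih hnd.2 (fun b hb u hu w hw => hL b hb u (List.mem_cons_of_mem _ hu) w
      (List.mem_cons_of_mem _ hw))
    rw [h1, List.map_cons, List.prod_cons]
    have h2 : ∏ b ∈ G.filter (fun b => ∀ v ∈ L, v ∉ S b), f b =
        (∏ b ∈ G.filter (fun b => v ∈ S b), f b) *
        ∏ b ∈ G.filter (fun b => ∀ w ∈ v :: L, w ∉ S b), f b := by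
      rw [← prod_union]
      · apply prod_congr _ (fun _ _ => rfl)
        ext b
        simp only [mem_filter, mem_union, List.mem_cons, forall_eq_or_imp]
        constructor
        · rintro ⟨hb, hb2⟩
          by_cases hv : v ∈ S b
          · exact Or.inl ⟨hb, hv⟩
          · exact Or.inr ⟨hb, hv, hb2⟩
        · rintro (⟨hb, hv⟩ | ⟨hb, _, hb2⟩)
          · refine ⟨hb, fun w hw hwS => ?_⟩
            have := hL b hb v List.mem_cons_self w (List.mem_cons_of_mem _ hw) hv hwS
            exact hnd.1 (this ▸ hw)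
          · exact ⟨hb, hb2⟩
      · rw [disjoint_left]
        intro b hb hb'
        rw [mem_filter] at hb hb'
        exact hb'.2 v List.mem_cons_self hb.2
    rw [h2, mul_left_comm, mul_assoc]

/-- full decoration of the vertex `v` -/
noncomputable def fdec (U : Sym2 Ω → ℝ) (T : V → Finset V) (G : Finset V) (S : V → Finset V)
    (v : V) (x : V → Ω) (y : Ω) : ℝ :=
  kp U (T v) x y * ∏ b ∈ G.filter (fun b => v ∈ S b), Phi μ U (S b) (Function.update x v y)

lemma bm_fdec (hU : Good U ε) (T : V → Finset V) (G : Finset V) (S : V → Finset V) (v : V) :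
    BM (fun q : (V → Ω) × Ω => fdec μ U T G S v q.1 q.2) := by
  unfold fdec
  exact (bm_kp hU (T v)).mul ((bm_prodPhi μ hU (G.filter (fun b => v ∈ S b)) S).comp
    (g := fun q : (V → Ω) × Ω => Function.update q.1 v q.2) (measurable_upd v))

lemma fdec_self (T : V → Finset V) (G : Finset V) (S : V → Finset V) (v : V) (x : V → Ω) :
    fdec μ U T G S v x (x v) = dec U T v x (x v) *
      ∏ b ∈ G.filter (fun b => v ∈ S b), Phi μ U (S b) x := by
  unfold fdec
  rw [Function.update_eq_self]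

lemma fdec_ind {T : V → Finset V} {G : Finset V} {S : V → Finset V} {v u : V}
    (h1 : u ∉ T v) (h2 : u ≠ v → ∀ b ∈ G, v ∈ S b → u ∉ S b) :
    Ind (Ω := Ω) u (fdec μ U T G S v) := by
  intro x w
  funext y
  unfold fdec
  rw [kp_update h1]
  congr 1
  by_cases huv : u = v
  · subst huv
    simp
  · rw [Function.update_comm huv]
    refine prod_congr rfl fun b hb => ?_
    rw [mem_filter] at hb
    exact Phi_ind μ (h2 huv b hb.1 hb.2) _ _

lemma abs_prodPhi_le {s : ℝ} (hs : 0 ≤ s) (G : Finset V) (S : V → Finset V)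
    (hPhi : ∀ b ∈ G, ∀ x, |Phi μ U (S b) x| ≤ s) (x : V → Ω) :
    |∏ b ∈ G, Phi μ U (S b) x| ≤ s ^ G.card := by
  rw [abs_prod, ← prod_const]
  exact prod_le_prod (fun _ _ => abs_nonneg _) (fun b hb => hPhi b hb x)

lemma abs_fdec_le {s : ℝ} (hs : 0 ≤ s) {T : V → Finset V} {G : Finset V} {S : V → Finset V}
    {v : V} {β : ℝ} (hβ : ∀ x y, |kp U (T v) x y| ≤ β) (hβ0 : 0 ≤ β)
    (hPhi : ∀ b ∈ G, ∀ x, |Phi μ U (S b) x| ≤ s) (x : V → Ω) (y : Ω) :
    |fdec μ U T G S v x y| ≤ β * s ^ (G.filter (fun b => v ∈ S b)).card := by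
  unfold fdec
  rw [abs_mul]
  apply mul_le_mul (hβ x y) _ (abs_nonneg _) hβ0
  exact abs_prodPhi_le μ hs _ _ (fun b hb => hPhi b (mem_filter.mp hb).1) _

lemma pathProd_fdec (T : V → Finset V) (G : Finset V) (S : V → Finset V) (p : List V) (a b : V)
    (x : V → Ω) :
    pathProd U (fdec μ U T G S) a p b x = pathProd U (dec U T) a p b x *
      (p.map (fun v => ∏ b ∈ G.filter (fun b => v ∈ S b), Phi μ U (S b) x)).prod := by
  induction p generalizing a with
  | nil => simp [pathProd]
  | cons v p ih =>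
    simp only [pathProd, List.map_cons, List.prod_cons, ih, fdec_self]
    ring

/-- the base case -/
theorem base_case (hU : Good U ε) {k : ℕ} {h m z : V} {p1 p2 : List V}
    {T : V → Finset V} {G : Finset V} {S : V → Finset V} {s : ℝ} {β : V → ℝ}
    (hk1 : p1.length + 1 = k) (hk2 : p2.length + 1 = k) (hs : 0 < s) (hβ : ∀ v, 0 < β v)
    (hkp : ∀ v ∈ p1 ++ m :: p2, ∀ x y, |kp U (T v) x y| ≤ β v)
    (hPhi : ∀ b ∈ G, ∀ x, |Phi μ U (S b) x| ≤ s)
    (nd1 : (h :: p1 ++ [m]).Nodup) (nd2 : (m :: p2 ++ [z]).Nodup)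
    (hdisj : ∀ u ∈ p1, u ∉ p2) (hzp : z ∉ p1) (hhp : h ∉ p2)
    (c1 : ∀ v ∈ p1, ∀ u ∈ h :: p1 ++ m :: p2, u ∉ T v)
    (c2 : ∀ v ∈ p2, ∀ u ∈ p1 ++ m :: p2 ++ [z], u ∉ T v)
    (c3 : ∀ u ∈ p1 ++ p2, u ∉ T m)
    (c4 : ∀ v ∈ p1, ∀ b ∈ G, v ∈ S b → ∀ u ∈ h :: p1 ++ m :: p2, u ≠ v → u ∉ S b)
    (c5 : ∀ v ∈ p2, ∀ b ∈ G, v ∈ S b → ∀ u ∈ p1 ++ m :: p2 ++ [z], u ≠ v → u ∉ S b) :
    |val μ U h (p1 ++ m :: p2) z T G S| ≤
      ((p1 ++ m :: p2).map β).prod * s ^ G.card * ck μ U k := by
  set G0 := G.filter (fun b => ∀ v ∈ p1 ++ p2, v ∉ S b) with hG0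
  set n : V → ℕ := fun v => (G.filter (fun b => v ∈ S b)).card with hn
  have hnd12 : (p1 ++ p2).Nodup := by
    rw [List.nodup_append]
    refine ⟨?_, ?_, ?_⟩
    · have := (List.nodup_cons.mp nd1).2
      exact (List.nodup_append.mp this).1
    · have := (List.nodup_cons.mp nd2).2
      exact (List.nodup_append.mp this).1
    · intro a ha b hb e
      exact hdisj a ha (e ▸ hb)
  have hL : ∀ b ∈ G, ∀ u ∈ p1 ++ p2, ∀ v ∈ p1 ++ p2, u ∈ S b → v ∈ S b → u = v := by
    intro b hb u hu v hv huS hvS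
    by_contra hne
    rw [List.mem_append] at hu hv
    rcases hu with hu | hu
    · refine c4 u hu b hb huS v ?_ (Ne.symm hne) hvS
      rcases hv with hv | hv <;> simp [hv]
    · refine c5 u hu b hb huS v ?_ (Ne.symm hne) hvS
      rcases hv with hv | hv <;> simp [hv]
  have hsplit : ∀ x : V → Ω, ∏ b ∈ G, Phi μ U (S b) x =
      ((p1 ++ p2).map (fun v => ∏ b ∈ G.filter (fun b => v ∈ S b), Phi μ U (S b) x)).prod *
      ∏ b ∈ G0, Phi μ U (S b) x := fun x =>
    prod_split G S (fun b => Phi μ U (S b) x) (p1 ++ p2) hnd12 hL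
  have hcard : s ^ G.card = ((p1 ++ p2).map (fun v => s ^ n v)).prod * s ^ G0.card := by
    have := prod_split G S (fun _ => s) (p1 ++ p2) hnd12 hL
    simpa only [prod_const] using this
  set R : (V → Ω) → ℝ := fun x => kp U (T m) x (x m) * ∏ b ∈ G0, Phi μ U (S b) x with hR
  have hRbm : BM R := (bm_kp_at hU (T m) m).mul (bm_prodPhi μ hU G0 S)
  have hval : val μ U h (p1 ++ m :: p2) z T G S =
      ∫ x, pathProd U (fdec μ U T G S) h p1 m x *
        (pathProd U (fdec μ U T G S) m p2 z x * R x) ∂(piM V μ) := by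
    unfold val
    congr 1
    ext x
    rw [pathProd_append, hsplit, pathProd_fdec, pathProd_fdec, List.map_append, List.prod_append]
    simp only [hR, dec]
    ring
  rw [hval]
  have hm : m ∈ p1 ++ m :: p2 := by simp
  have key := two_path μ hU (D := fdec μ U T G S) (R := R)
    (β := fun v => β v * s ^ n v) (C := β m * s ^ G0.card) hk1 hk2
    (bm_fdec μ hU T G S) hRbm (by
      intro x
      simp only [hR]
      rw [abs_mul]
      apply mul_le_mul (hkp m hm x _) _ (abs_nonneg _) (hβ m).le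
      exact abs_prodPhi_le μ hs.le _ _ (fun b hb => hPhi b (mem_filter.mp hb).1) _)
    nd1 nd2 hdisj hzp hhp
    (fun v hv u hu => fdec_ind μ (c1 v hv u hu) (fun hne b hb hvS => c4 v hv b hb hvS u hu hne))
    (fun v hv u hu => fdec_ind μ (c2 v hv u hu) (fun hne b hb hvS => c5 v hv b hb hvS u hu hne))
    (by
      intro u hu x w
      simp only [hR]
      have hum : u ≠ m := by
        intro e
        subst e
        rw [List.mem_append] at hu
        rcases hu with hu | hu
        · have := (List.nodup_cons.mp nd1).2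
          exact (List.nodup_append.mp this).2.2 u hu u (by simp) rfl
        · have := (List.nodup_cons.mp nd2).1
          exact this (List.mem_append_left _ hu)
      have h1 : kp U (T m) (Function.update x u w) = kp U (T m) x := kp_update (c3 u hu) x w
      have h2 : ∏ b ∈ G0, Phi μ U (S b) (Function.update x u w) = ∏ b ∈ G0, Phi μ U (S b) x :=
        prodPhi_ind μ (fun b hb => by
          rw [hG0, mem_filter] at hb
          exact hb.2 u hu) x w
      rw [h1, h2, Function.update_of_ne (Ne.symm hum)])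
    (fun v => mul_pos (hβ v) (pow_pos hs _))
    (fun v hv x y => abs_fdec_le μ hs.le (hkp v (by simp [hv])) (hβ v).le hPhi x y)
    (fun v hv x y => abs_fdec_le μ hs.le (hkp v (by simp [hv])) (hβ v).le hPhi x y)
  refine key.trans (le_of_eq ?_)
  rw [hcard]
  simp only [List.map_append, List.map_cons, List.prod_append, List.prod_cons, List.prod_map_mul]
  ring

end Vale.Agent.P050.R2.H738
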