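import Vale.Agent.P050.R2.H738.Base
import Vale.Agent.P050.R2.H612.Split

set_option linter.all false

/-!
# Dense targets: the base case with a marked vertex
-/

open MeasureTheory Finset

namespace Vale.Agent.P050.R2.H738

variable {V : Type*} [Fintype V] [DecidableEq V] {Ω : Type*} [MeasurableSpace Ω]
variable {U : Sym2 Ω → ℝ} {ε : ℝ}

lemma pathProd_reverse (D : V → (V → Ω) → Ω → ℝ) (p : List V) (a b : V) (x : V → Ω) :
    pathProd U D a p b x = pathProd U D b p.reverse a x := by
  induction p generalizing a with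
  | nil =>
    simp only [List.reverse_nil, pathProd]
    rw [Sym2.eq_swap]
  | cons v p ih =>
    rw [List.reverse_cons, pathProd_append]
    simp only [pathProd]
    rw [ih, Sym2.eq_swap]
    ring

variable (μ : Measure Ω) [IsProbabilityMeasure μ]

/-- one path from `h` to the marked vertex `z` -/
theorem one_case (hU : Good U ε) {k : ℕ} {h z : V} {p : List V}
    {T : V → Finset V} {G : Finset V} {S : V → Finset V} {s : ℝ} {β : V → ℝ}
    (hk : p.length + 1 = k) (hs : 0 < s) (hβ : ∀ v, 0 < β v)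
    (hkp : ∀ v ∈ p, ∀ x y, |kp U (T v) x y| ≤ β v)
    (hPhi : ∀ b ∈ G, ∀ x, |Phi μ U (S b) x| ≤ s)
    (nd : (h :: p ++ [z]).Nodup)
    (c1 : ∀ v ∈ p, ∀ u ∈ h :: p ++ [z], u ∉ T v)
    (c4 : ∀ v ∈ p, ∀ b ∈ G, v ∈ S b → ∀ u ∈ h :: p ++ [z], u ≠ v → u ∉ S b)
    {g : Ω → ℝ} (hg : BM g) {R0 : (V → Ω) → ℝ} (hR0 : BM R0) {C : ℝ} (hC0 : 0 ≤ C)
    (hC : ∀ x, |R0 x| ≤ C) (hRi : ∀ u ∈ p, Ind u R0) :
    |∫ x, g (x z) * (R0 x * pathProd U (dec U T) h p z x) *
        ∏ b ∈ G, Phi μ U (S b) x ∂(piM V μ)| ≤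
      C * ((p.map β).prod * s ^ G.card) *
        (Real.sqrt (ck μ U k) * Real.sqrt (∫ s, g s ^ 2 ∂μ)) := by
  set G0 := G.filter (fun b => ∀ v ∈ p, v ∉ S b) with hG0
  set n : V → ℕ := fun v => (G.filter (fun b => v ∈ S b)).card with hn
  have hhz : h ≠ z := by
    intro e; subst e; simp at nd
  have hndp : p.Nodup := (List.nodup_append.mp (List.nodup_cons.mp nd).2).1
  have hL : ∀ b ∈ G, ∀ u ∈ p, ∀ v ∈ p, u ∈ S b → v ∈ S b → u = v := by
    intro b hb u hu v hv huS hvS
    by_contra hne
    exact c4 u hu b hb huS v (by simp [hv]) (Ne.symm hne) hvS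
  have hsplit : ∀ x : V → Ω, ∏ b ∈ G, Phi μ U (S b) x =
      (p.map (fun v => ∏ b ∈ G.filter (fun b => v ∈ S b), Phi μ U (S b) x)).prod *
      ∏ b ∈ G0, Phi μ U (S b) x := fun x =>
    prod_split G S (fun b => Phi μ U (S b) x) p hndp hL
  have hcard : s ^ G.card = (p.map (fun v => s ^ n v)).prod * s ^ G0.card := by
    have := prod_split G S (fun _ => s) p hndp hL
    simpa only [prod_const] using this
  set R : (V → Ω) → ℝ := fun x => R0 x * ∏ b ∈ G0, Phi μ U (S b) x with hR
  have hRbm : BM R := hR0.mul (bm_prodPhi μ hU G0 S)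
  have hval : ∫ x, g (x z) * (R0 x * pathProd U (dec U T) h p z x) *
        ∏ b ∈ G, Phi μ U (S b) x ∂(piM V μ) =
      ∫ x, pathProd U (fdec μ U T G S) z p.reverse h x * (g (x z) * R x) ∂(piM V μ) := by
    congr 1
    ext x
    rw [← pathProd_reverse, hsplit, pathProd_fdec]
    simp only [hR]
    ring
  rw [hval]
  have key := H612.half_path μ hU (D := fdec μ U T G S) (R := R) (p := p.reverse) (a := z) (b := h)
    (β := fun v => β v * s ^ n v) (C := C * s ^ G0.card) (k := k)
    (bm_fdec μ hU T G S) (by rw [List.length_reverse]; exact hk) (Ne.symm hhz)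
    (by
      have : z :: p.reverse ++ [h] = (h :: p ++ [z]).reverse := by simp
      rw [this, List.nodup_reverse]
      exact nd)
    (fun v hv u hu => by
      rw [List.mem_reverse] at hv hu
      exact fdec_ind μ (c1 v hv u (by simp [hu])) (fun hne b hb hvS =>
        c4 v hv b hb hvS u (by simp [hu]) hne))
    (fun v hv => by
      rw [List.mem_reverse] at hv
      exact fdec_ind μ (c1 v hv z (by simp)) (fun hne b hb hvS =>
        c4 v hv b hb hvS z (by simp) hne))
    (fun v hv => by
      rw [List.mem_reverse] at hv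
      exact fdec_ind μ (c1 v hv h (by simp)) (fun hne b hb hvS =>
        c4 v hv b hb hvS h (by simp) hne))
    hg hRbm
    (fun u hu x w => by
      rw [List.mem_reverse] at hu
      have h1 : R0 (Function.update x u w) = R0 x := hRi u hu x w
      have h2 : ∏ b ∈ G0, Phi μ U (S b) (Function.update x u w) = ∏ b ∈ G0, Phi μ U (S b) x :=
        prodPhi_ind μ (fun b hb => by
          rw [hG0, mem_filter] at hb
          exact hb.2 u hu) x w
      simp only [hR]
      rw [h1, h2])
    (fun v hv => mul_pos (hβ v) (pow_pos hs _))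
    (fun v hv x y => by
      rw [List.mem_reverse] at hv
      exact abs_fdec_le μ hs.le (hkp v hv) (hβ v).le hPhi x y)
    (fun x => by
      simp only [hR]
      rw [abs_mul]
      apply mul_le_mul (hC x) _ (abs_nonneg _) hC0
      exact abs_prodPhi_le μ hs.le _ _ (fun b hb => hPhi b (mem_filter.mp hb).1) _)
    (mul_nonneg hC0 (pow_pos hs _).le)
  refine key.trans (le_of_eq ?_)
  have hrev : (p.reverse.map (fun v => β v * s ^ n v)).prod =
      (p.map (fun v => β v * s ^ n v)).prod :=
    ((List.reverse_perm p).map _).prod_eq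
  rw [hrev, hcard, List.prod_map_mul]
  ring

end Vale.Agent.P050.R2.H738
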