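import Vale.Agent.P050.R2.H300.Defs

set_option linter.all false

/-!
# Dense targets: states of the path expansion, combinatorics

`St` lists the invariants of a state h, p, z, T, G, S with `2 i` path edges; the girth
condition `GC` gives the step and the conditions of the base case.
-/

open Finset

namespace Vale.Agent.P050.R2.H738

open Vale.Agent.P050 Vale.Agent.P050.Dense

variable {V : Type*} [Fintype V] [DecidableEq V]

lemma hg_adj {N : V → Finset V} {γ : Finset V} {u v : V} :
    (HG N γ).Adj u v ↔ u ≠ v ∧ ((u ∈ γ ∧ v ∈ N u) ∨ (v ∈ γ ∧ u ∈ N v)) := by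
  rw [HG, SimpleGraph.fromRel_adj]

/-! ### from lists to cycles -/

lemma chain_sub {R : V → V → Prop} {l l1 : List V} (h : l.IsChain R) (h' : l1 <:+: l) :
    l1.IsChain R := by
  rcases h' with ⟨s, t, rfl⟩
  exact h.left_of_append.right_of_append

lemma list_walk (G : SimpleGraph V) : ∀ (l : List V) (u w : V),
    (u :: l ++ [w]).IsChain G.Adj → ∃ p : G.Walk u w, p.support = u :: l ++ [w] := by
  intro l
  induction l with
  | nil =>
    intro u w h
    have h1 : G.Adj u w := by
      simpa using h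
    exact ⟨SimpleGraph.Walk.cons h1 SimpleGraph.Walk.nil, by simp⟩
  | cons v l ih =>
    intro u w h
    have h1 : G.Adj u v ∧ (v :: l ++ [w]).IsChain G.Adj := by
      simpa only [List.cons_append, List.isChain_cons_cons] using h
    obtain ⟨p, hp⟩ := ih v w h1.2
    exact ⟨SimpleGraph.Walk.cons h1.1 p, by simp [hp]⟩

/-- a closed chain without repetition is a cycle -/
lemma gc_list {N : V → Finset V} {γ : Finset V} {k : ℕ} (hg : GC N γ k) {l : List V} {u w : V}
    (hc : (u :: l ++ [w]).IsChain (HG N γ).Adj) (hn : (u :: l ++ [w]).Nodup)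
    (hl : l ≠ []) (hw : (HG N γ).Adj w u) : 2 * k ≤ l.length + 2 := by
  obtain ⟨v, l', rfl⟩ := List.exists_cons_of_ne_nil hl
  have h1 : (HG N γ).Adj u v ∧ (v :: l' ++ [w]).IsChain (HG N γ).Adj := by
    simpa only [List.cons_append, List.isChain_cons_cons] using hc
  obtain ⟨p, hp⟩ := list_walk _ l' v w h1.2
  have hun : u ∉ v :: l' ++ [w] := (List.nodup_cons.mp hn).1
  have hvn : (v :: l' ++ [w]).Nodup := (List.nodup_cons.mp hn).2
  have hvw : v ≠ w := by
    intro e
    subst e
    have := (List.nodup_cons.mp hvn).1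
    exact this (by simp)
  have hpp : p.IsPath := by
    rw [SimpleGraph.Walk.isPath_def, hp]; exact hvn
  have hqp : (SimpleGraph.Walk.cons h1.1 p).IsPath := by
    rw [SimpleGraph.Walk.cons_isPath_iff]
    exact ⟨hpp, by rw [hp]; exact hun⟩
  have hcyc : (SimpleGraph.Walk.cons hw (SimpleGraph.Walk.cons h1.1 p)).IsCycle := by
    rw [SimpleGraph.Walk.cons_isCycle_iff]
    refine ⟨hqp, ?_⟩
    intro hm
    rw [SimpleGraph.Walk.edges_cons, List.mem_cons] at hm
    rcases hm with hm | hm
    · rw [Sym2.eq_iff] at hm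
      rcases hm with ⟨_, h3⟩ | ⟨h3, _⟩
      · exact h1.1.ne h3
      · exact hvw h3.symm
    · have := SimpleGraph.Walk.snd_mem_support_of_mem_edges p hm
      rw [hp] at this
      exact hun this
  have := hg w _ hcyc
  have hlen : p.length + 1 = l'.length + 2 := by
    have h2 := SimpleGraph.Walk.length_support p
    rw [hp] at h2
    simp at h2
    omega
  simp only [SimpleGraph.Walk.length_cons] at this
  simp only [List.length_cons]
  omega

lemma gc_two_aux {N : V → Finset V} {γ : Finset V} {k : ℕ} (hg : GC N γ k) {s t t' : List V}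
    {b u v : V} (hc : (s ++ u :: (t ++ v :: t')).IsChain (HG N γ).Adj)
    (hn : (s ++ u :: (t ++ v :: t')).Nodup) (hb : b ∉ s ++ u :: (t ++ v :: t'))
    (hbu : (HG N γ).Adj b u) (hbv : (HG N γ).Adj b v) :
    2 * k ≤ (s ++ u :: (t ++ v :: t')).length + 1 := by
  have hinf : (u :: t ++ [v]) <:+: (s ++ u :: (t ++ v :: t')) := ⟨s, t', by simp⟩
  have h1 := chain_sub hc hinf
  have h2 := hn.sublist hinf.sublist
  have h3 : b ∉ u :: t ++ [v] := fun h => hb (hinf.sublist.subset h)
  have key := gc_list hg (l := u :: t) (u := b) (w := v)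
    (by
      rw [List.cons_append, List.cons_append, List.isChain_cons_cons]
      exact ⟨hbu, h1⟩)
    (by
      rw [List.cons_append, List.nodup_cons]
      exact ⟨h3, h2⟩)
    (by simp) hbv.symm
  simp only [List.length_append, List.length_cons] at key ⊢
  omega

/-- a vertex outside a path adjacent to two of its vertices -/
lemma gc_two {N : V → Finset V} {γ : Finset V} {k : ℕ} (hg : GC N γ k) {L : List V}
    (hc : L.IsChain (HG N γ).Adj) (hn : L.Nodup) {b u v : V} (hb : b ∉ L) (hu : u ∈ L)
    (hv : v ∈ L) (huv : u ≠ v) (hbu : (HG N γ).Adj b u) (hbv : (HG N γ).Adj b v) :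
    2 * k ≤ L.length + 1 := by
  obtain ⟨s, t, rfl⟩ := List.append_of_mem hu
  rw [List.mem_append, List.mem_cons] at hv
  rcases hv with hv | hv | hv
  · obtain ⟨s1, s2, rfl⟩ := List.append_of_mem hv
    have e : s1 ++ v :: s2 ++ u :: t = s1 ++ v :: (s2 ++ u :: t) := by simp
    rw [e] at hc hn hb ⊢
    exact gc_two_aux hg hc hn hb hbv hbu
  · exact absurd hv.symm huv
  · obtain ⟨t1, t2, rfl⟩ := List.append_of_mem hv
    exact gc_two_aux hg hc hn hb hbu hbv

/-! ### states -/

/-- the invariants of a state with `2 i` path edges -/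
structure St (N : V → Finset V) (γ : Finset V) (k i : ℕ) (h : V) (p : List V) (z : V)
    (T : V → Finset V) (G : Finset V) (S : V → Finset V) : Prop where
  ch : (h :: p ++ [z]).IsChain (HG N γ).Adj
  nd : (p ++ [z]).Nodup
  hp : h ∉ p
  len : p.length + 1 = 2 * i
  Gs : G ⊆ γ
  pG : ∀ v ∈ p, v ∉ G
  cd : G.card + i = γ.card
  SN : ∀ b ∈ G, S b ⊆ N b
  TN : ∀ v ∈ γ, T v ⊆ N v
  T0 : ∀ v, v ∉ γ → T v = ∅
  J1 : ∀ u ∈ p, ∀ v ∈ p, u ∉ T v
  hγ : h ∉ γ
  zγ : z ∉ γ
  cnt : (p.map (fun v => if v ∈ γ then (2:ℝ) else 1)).prod = 2 ^ i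
  hz : i < k → h ≠ z
  hT : i < k → ∀ v ∈ p, h ∉ T v
  zT : i < k → ∀ v ∈ p, z ∉ T v
  hT' : ∀ v ∈ p.dropLast, h ∉ T v
  zT' : ∀ v ∈ p.tail, z ∉ T v

section

variable {N : V → Finset V} {B γ : Finset V} {D : ℕ}

/-- the first state -/
lemma St.start (hN : Bip N B D) (hγ : γ ⊆ B) {k : ℕ} {b c a : V} (hb : b ∈ γ) (hc : c ∈ N b)
    (ha : a ∈ N b) (hca : c ≠ a) {A : Finset V} (hA : A ⊆ N b) (hcA : c ∉ A) (haA : a ∉ A)
    {S : V → Finset V} (hS : ∀ b' ∈ γ.erase b, S b' ⊆ N b') :
    St N γ k 1 c [b] a (Function.update (fun _ => ∅) b A) (γ.erase b) S := by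
  have hbc : b ≠ c := by
    rintro rfl
    exact hN.out b (hγ hb) b hc (hγ hb)
  have hba : b ≠ a := by
    rintro rfl
    exact hN.out b (hγ hb) b ha (hγ hb)
  have hcγ : c ∉ γ := fun h => hN.out b (hγ hb) c hc (hγ h)
  have haγ : a ∉ γ := fun h => hN.out b (hγ hb) a ha (hγ h)
  have hbA : b ∉ A := fun h => hN.out b (hγ hb) b (hA h) (hγ hb)
  refine ⟨?_, ?_, ?_, ?_, erase_subset _ _, ?_, ?_, hS, ?_, ?_, ?_, hcγ, haγ, ?_, fun _ => hca,
    ?_, ?_, ?_, ?_⟩
  · simp only [List.cons_append, List.nil_append, List.isChain_cons_cons, List.isChain_singleton,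
      and_true]
    exact ⟨hg_adj.mpr ⟨Ne.symm hbc, Or.inr ⟨hb, hc⟩⟩, hg_adj.mpr ⟨hba, Or.inl ⟨hb, ha⟩⟩⟩
  · simpa using hba
  · simpa using Ne.symm hbc
  · simp
  · intro v hv
    rw [List.mem_singleton] at hv
    subst hv
    exact notMem_erase _ _
  · rw [card_erase_of_mem hb]
    have := card_pos.mpr ⟨b, hb⟩
    omega
  · intro v hv
    by_cases e : v = b
    · subst e
      rw [Function.update_self]
      exact hA
    · rw [Function.update_of_ne e]
      exact empty_subset _
  · intro v hv
    have e : v ≠ b := fun e => hv (e ▸ hb)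
    rw [Function.update_of_ne e]
  · intro u hu v hv
    rw [List.mem_singleton] at hu hv
    subst hu
    subst hv
    rw [Function.update_self]
    exact hbA
  · simp [hb]
  · intro _ v hv
    rw [List.mem_singleton] at hv
    subst hv
    rw [Function.update_self]
    exact hcA
  · intro _ v hv
    rw [List.mem_singleton] at hv
    subst hv
    rw [Function.update_self]
    exact haA
  · intro v hv
    simp at hv
  · intro v hv
    simp at hv

variable {k i : ℕ} {h : V} {p : List V} {z : V} {T : V → Finset V} {G : Finset V}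
  {S : V → Finset V}

/-- decorations consist of vertices outside `γ` -/
lemma St.T_out (hN : Bip N B D) (hγ : γ ⊆ B) (st : St N γ k i h p z T G S) {u v : V}
    (hu : u ∈ γ) : u ∉ T v := by
  intro hm
  by_cases hv : v ∈ γ
  · exact hN.out v (hγ hv) u (st.TN v hv hm) (hγ hu)
  · rw [st.T0 v hv] at hm
    exact absurd hm (notMem_empty _)

lemma St.S_out (hN : Bip N B D) (hγ : γ ⊆ B) (st : St N γ k i h p z T G S) {u b : V}
    (hb : b ∈ G) (hu : u ∈ γ) : u ∉ S b := by
  intro hm
  exact hN.out b (hγ (st.Gs hb)) u (st.SN b hb hm) (hγ hu)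

/-- the first path vertex is in `γ` -/
lemma St.head_mem (st : St N γ k i h p z T G S) {b : V} {p' : List V} (e : p = b :: p') :
    b ∈ γ := by
  have h1 := st.ch
  rw [e] at h1
  simp only [List.cons_append, List.isChain_cons_cons] at h1
  rcases hg_adj.mp h1.1 with ⟨_, h2 | h2⟩
  · exact absurd h2.1 st.hγ
  · exact h2.1

lemma St.T_mem (st : St N γ k i h p z T G S) {u v : V} (hm : u ∈ T v) :
    v ∈ γ ∧ u ∈ N v := by
  by_cases hv : v ∈ γ
  · exact ⟨hv, st.TN v hv hm⟩
  · rw [st.T0 v hv] at hm
    exact absurd hm (notMem_empty _)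

/-- one double step -/
lemma St.step (hN : Bip N B D) (hγ : γ ⊆ B) (hg : GC N γ k) (st : St N γ k i h p z T G S)
    (hi : i < k) {b : V} (hb : b ∈ G)
    {S' : V → Finset V} (hS : ∀ b' ∈ G, S' b' ⊆ S b') (hh : h ∈ S' b) {c : V}
    (hc : c ∈ (S' b).erase h) {A : Finset V} (hA : A ⊆ (S' b).erase h) (hcA : c ∉ A) :
    St N γ k (i + 1) c (b :: h :: p) z (Function.update (Function.update T b A) h ∅)
      (G.erase b) S' := by
  have hbγ : b ∈ γ := st.Gs hb
  have hSN : S' b ⊆ N b := (hS b hb).trans (st.SN b hb)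
  have hcN : c ∈ N b := hSN (mem_of_mem_erase hc)
  have hhN : h ∈ N b := hSN hh
  have hch : c ≠ h := ne_of_mem_erase hc
  have hAN : ∀ u ∈ A, u ∈ N b := fun u hu => hSN (mem_of_mem_erase (hA hu))
  have hhA : h ∉ A := fun hm => (ne_of_mem_erase (hA hm)) rfl
  have hbh : b ≠ h := fun e => st.hγ (e ▸ hbγ)
  have hbz : b ≠ z := fun e => st.zγ (e ▸ hbγ)
  have hbp : b ∉ p := fun hm => st.pG b hm hb
  have hhz : h ≠ z := st.hz hi
  have hNγ : ∀ u ∈ N b, u ∉ γ := fun u hu hm => hN.out b (hγ hbγ) u hu (hγ hm)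
  have hcγ : c ∉ γ := hNγ c hcN
  have hcb : c ≠ b := fun e => hcγ (e ▸ hbγ)
  have hbA : b ∉ A := fun hm => hNγ b (hAN b hm) hbγ
  have adjb : ∀ u ∈ N b, (HG N γ).Adj b u := fun u hu =>
    hg_adj.mpr ⟨fun e => hNγ u hu (e ▸ hbγ), Or.inl ⟨hbγ, hu⟩⟩
  -- chains
  have ch0 : (h :: p).IsChain (HG N γ).Adj := st.ch.left_of_append
  have nd1 : (h :: p ++ [z]).Nodup := by
    rw [List.cons_append, List.nodup_cons]
    refine ⟨?_, st.nd⟩
    rw [List.mem_append, List.mem_singleton]
    rintro (h1 | h1)
    · exact st.hp h1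
    · exact hhz h1
  have nd0 : (h :: p).Nodup := (List.nodup_append.mp nd1).1
  have ch2 : (b :: h :: p).IsChain (HG N γ).Adj := by
    rw [List.isChain_cons_cons]
    exact ⟨adjb h hhN, ch0⟩
  have nd2 : (b :: h :: p).Nodup := by
    rw [List.nodup_cons]
    refine ⟨?_, nd0⟩
    rw [List.mem_cons]
    rintro (h1 | h1)
    · exact hbh h1
    · exact hbp h1
  have hlen : p.length + 1 = 2 * i := st.len
  -- a vertex of `p` is not in `N b`
  have hpN : ∀ u ∈ p, u ∉ N b := by
    intro u hu huN
    have huh : u ≠ h := fun e => st.hp (e ▸ hu)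
    have := gc_two hg ch0 nd0 (b := b) (u := h) (v := u) (by
      rw [List.mem_cons]
      rintro (h1 | h1)
      · exact hbh h1
      · exact hbp h1) List.mem_cons_self (List.mem_cons_of_mem _ hu) (Ne.symm huh)
      (adjb h hhN) (adjb u huN)
    simp only [List.length_cons] at this
    omega
  have hzN : i + 1 < k → z ∉ N b := by
    intro hi2 hzN
    have := gc_two hg st.ch nd1 (b := b) (u := h) (v := z) (by
      rw [List.cons_append, List.mem_cons, List.mem_append, List.mem_singleton]
      rintro (h1 | h1 | h1)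
      · exact hbh h1
      · exact hbp h1
      · exact hbz h1) (by simp) (by simp) hhz (adjb h hhN) (adjb z hzN)
    simp only [List.length_append, List.length_cons, List.length_nil] at this
    omega
  have hcp : c ∉ p := fun hm => hpN c hm hcN
  have hcp' : c ∉ b :: h :: p := by
    rw [List.mem_cons, List.mem_cons]
    rintro (h1 | h1 | h1)
    · exact hcb h1
    · exact hch h1
    · exact hcp h1
  -- new decorations
  have hT'1 : ∀ v ∈ p, Function.update (Function.update T b A) h ∅ v = T v := by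
    intro v hv
    have h1 : v ≠ h := fun e => st.hp (e ▸ hv)
    have h2 : v ≠ b := fun e => hbp (e ▸ hv)
    rw [Function.update_of_ne h1, Function.update_of_ne h2]
  have hT'b : Function.update (Function.update T b A) h ∅ b = A := by
    rw [Function.update_of_ne hbh, Function.update_self]
  have hT'h : Function.update (Function.update T b A) h ∅ h = ∅ := Function.update_self _ _ _
  -- `c` is not in the decorations of `p`
  have hcT : ∀ L : List V, L <:+: (b :: h :: p) → ∀ v ∈ L, b ∈ L → v ≠ b →
      L.length + 1 < 2 * k → c ∉ T v := by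
    intro L hL v hv hbL hvb hlL hm
    obtain ⟨hvγ, hcv⟩ := st.T_mem hm
    have := gc_two hg (chain_sub ch2 hL) (nd2.sublist hL.sublist) (b := c) (u := b) (v := v)
      (fun hm => hcp' (hL.sublist.subset hm)) hbL hv (Ne.symm hvb) (adjb c hcN).symm
      (hg_adj.mpr ⟨fun e => hcγ (e ▸ hvγ), Or.inr ⟨hvγ, hcv⟩⟩)
    omega
  refine ⟨?_, ?_, hcp', ?_, ?_, ?_, ?_, ?_, ?_, ?_, ?_, hcγ, st.zγ, ?_, ?_, ?_, ?_, ?_, ?_⟩
  · rw [List.cons_append, List.cons_append, List.isChain_cons_cons]
    refine ⟨(adjb c hcN).symm, ?_⟩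
    rw [List.cons_append, List.isChain_cons_cons]
    exact ⟨adjb h hhN, st.ch⟩
  · rw [List.cons_append, List.nodup_cons]
    refine ⟨?_, nd1⟩
    rw [List.cons_append, List.mem_cons, List.mem_append, List.mem_singleton]
    rintro (h1 | h1 | h1)
    · exact hbh h1
    · exact hbp h1
    · exact hbz h1
  · simp only [List.length_cons]
    omega
  · exact (erase_subset _ _).trans st.Gs
  · intro v hv
    rw [List.mem_cons, List.mem_cons] at hv
    rcases hv with rfl | rfl | hv
    · exact notMem_erase _ _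
    · exact fun hm => st.hγ (st.Gs (mem_of_mem_erase hm))
    · exact fun hm => st.pG v hv (mem_of_mem_erase hm)
  · rw [card_erase_of_mem hb]
    have h1 := card_pos.mpr ⟨b, hb⟩
    have h2 := st.cd
    omega
  · intro b' hb'
    exact (hS b' (mem_of_mem_erase hb')).trans (st.SN b' (mem_of_mem_erase hb'))
  · intro v hv
    have h1 : v ≠ h := fun e => st.hγ (e ▸ hv)
    rw [Function.update_of_ne h1]
    by_cases e : v = b
    · subst e
      rw [Function.update_self]
      exact fun u hu => hAN u hu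
    · rw [Function.update_of_ne e]
      exact st.TN v hv
  · intro v hv
    by_cases e : v = h
    · subst e
      exact hT'h
    · have h2 : v ≠ b := fun e => hv (e ▸ hbγ)
      rw [Function.update_of_ne e, Function.update_of_ne h2]
      exact st.T0 v hv
  · intro u hu v hv
    rw [List.mem_cons, List.mem_cons] at hu hv
    rcases hv with rfl | rfl | hv
    · rw [hT'b]
      rcases hu with rfl | rfl | hu
      · exact hbA
      · exact hhA
      · exact fun hm => hpN u hu (hAN u hm)
    · rw [hT'h]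
      exact notMem_empty _
    · rw [hT'1 v hv]
      rcases hu with rfl | rfl | hu
      · exact st.T_out hN hγ hbγ
      · exact st.hT hi v hv
      · exact st.J1 u hu v hv
  · simp only [List.map_cons, List.prod_cons, if_pos hbγ, if_neg st.hγ, st.cnt]
    ring
  · intro hi2 e
    exact hzN hi2 (e ▸ hcN)
  · intro hi2 v hv
    by_cases e : v = b
    · subst e
      rw [hT'b]
      exact hcA
    · rw [List.mem_cons, List.mem_cons] at hv
      rcases hv with h1 | rfl | hv
      · exact absurd h1 e
      · rw [hT'h]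
        exact notMem_empty _
      · rw [hT'1 v hv]
        refine hcT (b :: h :: p) (⟨[], [], by simp⟩) v (by simp [hv]) (by simp) e ?_
        simp only [List.length_cons]
        omega
  · intro hi2 v hv
    rw [List.mem_cons, List.mem_cons] at hv
    rcases hv with rfl | rfl | hv
    · rw [hT'b]
      exact fun hm => hzN hi2 (hAN z hm)
    · rw [hT'h]
      exact notMem_empty _
    · rw [hT'1 v hv]
      exact st.zT hi v hv
  · intro v hv
    by_cases e : v = b
    · subst e
      rw [hT'b]
      exact hcA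
    · have hv' : v ∈ b :: h :: p := List.mem_of_mem_dropLast hv
      rw [List.mem_cons, List.mem_cons] at hv'
      rcases hv' with h1 | rfl | hv'
      · exact absurd h1 e
      · rw [hT'h]
        exact notMem_empty _
      · rw [hT'1 v hv']
        refine hcT (b :: h :: p).dropLast (List.dropLast_prefix _).isInfix v hv ?_ e ?_
        · simp
        · simp only [List.length_dropLast, List.length_cons]
          omega
  · intro v hv
    rw [List.tail_cons, List.mem_cons] at hv
    rcases hv with rfl | hv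
    · rw [hT'h]
      exact notMem_empty _
    · rw [hT'1 v hv]
      exact st.zT hi v hv

end

end Vale.Agent.P050.R2.H738
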