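import Vale.Agent.P050.R2.H738.Main

set_option linter.all false

/-!
# Dense targets, M5e, M5f, M5g: the polymer bounds (route A)
-/

open MeasureTheory Finset

namespace Vale.Agent.P050.R2.H738

open Vale.Agent.P050 Vale.Agent.P050.Dense

variable {V : Type*} [Fintype V] [DecidableEq V] {Ω : Type*} [MeasurableSpace Ω]
variable (μ : Measure Ω) [IsProbabilityMeasure μ] {U : Sym2 Ω → ℝ} {κ η : ℝ}

section

variable {N : V → Finset V} {B γ : Finset V} {D : ℕ}
variable {k i : ℕ} {h : V} {p : List V} {z : V} {T : V → Finset V} {G : Finset V}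
  {S : V → Finset V}

/-- the states with `2 ((k + 1) / 2)` path edges, marked vertex -/
lemma St.base_g (hN : Bip N B D) (hγ : γ ⊆ B) (hg : GC N γ k) (hk : 2 ≤ k) (hU : Ker μ U κ η)
    {σ : ℝ} (hn : Num D κ η σ) (hσ : 0 < σ) {g : Ω → ℝ} (hgm : BM g)
    (st : St N γ k ((k + 1) / 2) h p z T G S) :
    |vl μ U (pf U g h p z T) G S| ≤ 2 ^ ((k + 1) / 2) * σ ^ (γ.card - (k + 1) / 2) *
      (Real.sqrt (ck μ U k) * Real.sqrt (∫ s, g s ^ 2 ∂μ)) := by
  have hl := st.len
  have hjk : (k + 1) / 2 < k := by omega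
  have hGk : G.card = γ.card - (k + 1) / 2 := by
    have := st.cd
    omega
  have hhz := st.hz hjk
  have hnd : (h :: p ++ [z]).Nodup := by
    rw [List.cons_append, List.nodup_cons]
    refine ⟨?_, st.nd⟩
    rw [List.mem_append, List.mem_singleton]
    rintro (h1 | h1)
    · exact st.hp h1
    · exact hhz h1
  have hbp : ∀ b ∈ G, b ∉ p := fun b hb hm => st.pG b hm hb
  have hTh := st.hT hjk
  have hTz := st.zT hjk
  have hck0 : 0 ≤ Real.sqrt (ck μ U k) * Real.sqrt (∫ s, g s ^ 2 ∂μ) :=
    mul_nonneg (Real.sqrt_nonneg _) (Real.sqrt_nonneg _)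
  -- a remaining factor contains at most one of the vertices of `p ++ [z]`
  have hpz : ∀ b ∈ G, ∀ v ∈ p, v ∈ S b → z ∉ S b := by
    intro b hb v hv hvS hzS
    have hvz : v ≠ z := fun e => (List.nodup_append.mp st.nd).2.2 v hv z (by simp) e
    cases hp : p with
    | nil => rw [hp] at hv; exact absurd hv List.not_mem_nil
    | cons w p' =>
      have hwγ : w ∈ γ := st.head_mem hp
      have hv' : v ∈ p' := by
        rw [hp, List.mem_cons] at hv
        rcases hv with rfl | hv
        · exact absurd hvS (st.S_out hN hγ hb hwγ)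
        · exact hv
      have hinf : (p' ++ [z]) <:+: (h :: p ++ [z]) := ⟨[h, w], [], by rw [hp]; simp⟩
      have := gc_two hg (chain_sub st.ch hinf) (hnd.sublist hinf.sublist) (b := b) (u := v) (v := z)
        (by
          rw [List.mem_append, List.mem_singleton]
          rintro (h1 | h1)
          · exact hbp b hb (by rw [hp]; exact List.mem_cons_of_mem _ h1)
          · exact st.zγ (h1 ▸ st.Gs hb)) (List.mem_append_left _ hv') (by simp) hvz
        (st.adjS hN hγ hb hvS) (st.adjS hN hγ hb hzS)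
      rw [hp, List.length_cons] at hl
      simp only [List.length_append, List.length_cons, List.length_nil] at this
      omega
  rcases Nat.even_or_odd k with hpar | hpar
  · -- even: the whole path has `k` edges
    obtain ⟨r, hr⟩ := hpar
    have hlen : p.length + 1 = k := by omega
    have key := one_case μ hU.good (h := h) (z := z) (p := p) (T := T) (G := G) (S := S)
      (β := fun v => if v ∈ γ then (2:ℝ) else 1) hlen hσ (fun v => bgamma_pos v)
      (fun v _ x y => st.kp_le μ hN hγ hU hn v x y) (st.Phi_le μ hN hγ hU hn) hnd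
      (by
        intro v hv u hu
        rw [List.cons_append, List.mem_cons, List.mem_append, List.mem_singleton] at hu
        rcases hu with rfl | hu | rfl
        · exact hTh v hv
        · exact st.J1 u hu v hv
        · exact hTz v hv)
      (by
        intro v hv b hb hvS u hu huv huS
        rw [List.cons_append, List.mem_cons, List.mem_append, List.mem_singleton] at hu
        rcases hu with rfl | hu | rfl
        · have hinf : (u :: p) <:+: (u :: p ++ [z]) := ⟨[], [z], by simp⟩
          have := gc_two hg (chain_sub st.ch hinf) (hnd.sublist hinf.sublist) (b := b) (u := u)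
            (v := v)
            (by
              rw [List.mem_cons]
              rintro (h1 | h1)
              · exact st.hγ (h1 ▸ st.Gs hb)
              · exact hbp b hb h1) List.mem_cons_self (List.mem_cons_of_mem _ hv) huv
            (st.adjS hN hγ hb huS) (st.adjS hN hγ hb hvS)
          simp only [List.length_cons] at this
          omega
        · exact huv (st.inner hN hγ hg hjk.le hb hu hv huS hvS)
        · exact hpz b hb v hv hvS huS)
      hgm (R0 := fun _ => 1) (BM.const 1) (C := 1) zero_le_one (fun _ => by simp)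
      (fun u _ x w => rfl)
    have e : ∫ x, g (x z) * (1 * pathProd U (dec U T) h p z x) *
        ∏ b ∈ G, Phi μ U (S b) x ∂(piM V μ) = vl μ U (pf U g h p z T) G S := by
      unfold vl pf
      simp only [one_mul]
    rw [e, st.cnt, hGk] at key
    refine key.trans (le_of_eq ?_)
    ring
  · -- odd: drop the last edge
    obtain ⟨r, hr⟩ := hpar
    obtain ⟨b0, p', rfl⟩ : ∃ b0 p', p = b0 :: p' := by
      cases p with
      | nil =>
        simp at hl
        omega
      | cons b0 p' => exact ⟨b0, p', rfl⟩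
    have hb0γ : b0 ∈ γ := st.head_mem rfl
    have hlen : p'.length + 1 = k := by
      rw [List.length_cons] at hl
      omega
    have hinf0 : (b0 :: p' ++ [z]) <:+: (h :: (b0 :: p') ++ [z]) := ⟨[h], [], by simp⟩
    have hnd' : (b0 :: p' ++ [z]).Nodup := st.nd
    have hb0p : b0 ∉ p' := by
      intro hm
      exact (List.nodup_cons.mp hnd').1 (List.mem_append_left _ hm)
    have key := one_case μ hU.good (h := b0) (z := z) (p := p') (T := T) (G := G) (S := S)
      (β := fun v => if v ∈ γ then (2:ℝ) else 1) hlen hσ (fun v => bgamma_pos v)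
      (fun v _ x y => st.kp_le μ hN hγ hU hn v x y) (st.Phi_le μ hN hγ hU hn) hnd'
      (by
        intro v hv u hu
        rw [List.mem_append, List.mem_singleton] at hu
        rcases hu with hu | rfl
        · exact st.J1 u hu v (List.mem_cons_of_mem _ hv)
        · exact hTz v (List.mem_cons_of_mem _ hv))
      (by
        intro v hv b hb hvS u hu huv huS
        rw [List.mem_append, List.mem_singleton] at hu
        rcases hu with hu | rfl
        · exact huv (st.inner hN hγ hg hjk.le hb hu (List.mem_cons_of_mem _ hv) huS hvS)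
        · exact hpz b hb v (List.mem_cons_of_mem _ hv) hvS huS)
      hgm (R0 := fun x => two U (x h) (x b0) * kp U (T b0) x (x b0))
      ((bm_uu hU.good h b0).mul (bm_kp_at hU.good (T b0) b0)) (C := 2) zero_le_two
      (by
        intro x
        rw [abs_mul]
        have h1 : |two U (x h) (x b0)| ≤ 1 := hU.good.bdd _
        have h2 : |kp U (T b0) x (x b0)| ≤ 2 := by
          have := st.kp_le μ hN hγ hU hn b0 x (x b0)
          rwa [if_pos hb0γ] at this
        calc |two U (x h) (x b0)| * |kp U (T b0) x (x b0)| ≤ 1 * 2 :=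
              mul_le_mul h1 h2 (abs_nonneg _) zero_le_one
          _ = 2 := one_mul 2)
      (by
        intro u hu x w
        have hub : b0 ≠ u := fun e => hb0p (e ▸ hu)
        have huh : h ≠ u := fun e => st.hp (by rw [e]; exact List.mem_cons_of_mem _ hu)
        have h3 : kp U (T b0) (Function.update x u w) = kp U (T b0) x :=
          kp_update (st.J1 u (List.mem_cons_of_mem _ hu) b0 List.mem_cons_self) x w
        simp only []
        rw [h3, Function.update_of_ne hub, Function.update_of_ne huh])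
    have e : ∫ x, g (x z) * ((two U (x h) (x b0) * kp U (T b0) x (x b0)) *
        pathProd U (dec U T) b0 p' z x) * ∏ b ∈ G, Phi μ U (S b) x ∂(piM V μ) =
        vl μ U (pf U g h (b0 :: p') z T) G S := by
      unfold vl pf
      simp only [pathProd]
      rfl
    have hcnt : (p'.map (fun v => if v ∈ γ then (2:ℝ) else 1)).prod * 2 = 2 ^ ((k + 1) / 2) := by
      have := st.cnt
      rw [List.map_cons, List.prod_cons, if_pos hb0γ] at this
      rw [← this]
      ring
    rw [e, hGk] at key
    refine key.trans (le_of_eq ?_)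
    rw [← hcnt]
    ring

end

end Vale.Agent.P050.R2.H738

namespace Vale.Agent.P050.Dense

open Vale.Agent.P050 Vale.Agent.P050.R2.H738

variable {V : Type*} [Fintype V] [DecidableEq V] {Ω : Type*} [MeasurableSpace Ω]
variable (μ : Measure Ω) [IsProbabilityMeasure μ] {U : Sym2 Ω → ℝ} {κ η : ℝ}

/-- M5e: polymer bound -/
theorem phi_bound {N : V → Finset V} {B γ : Finset V} {D : ℕ} (hN : Bip N B D)
    (hU : Ker μ U κ η) {σ : ℝ} (hn : Num D κ η σ) (hσ : 0 < σ)
    (hγ : γ ⊆ B) (hne : γ.Nonempty) {k : ℕ} (hk : 2 ≤ k) (hg : GC N γ k) :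
    |phi μ U N γ| ≤ (2 * D ^ 2) ^ k * σ ^ (γ.card - k) * ck μ U k := by
  obtain ⟨b, hb⟩ := hne
  have hck := ck_nonneg μ (U := U) k
  set M : ℝ := 2 ^ k * σ ^ (γ.card - k) * ck μ U k with hM
  have hM0 : 0 ≤ M := by positivity
  have hD0 : (0:ℝ) ≤ (D:ℝ) := Nat.cast_nonneg _
  obtain ⟨n, rfl⟩ : ∃ n, k = 1 + n := ⟨k - 1, by omega⟩
  have hbN : b ∉ N b := fun h => hN.out b (hγ hb) b h (hγ hb)
  have key := val0_bound μ hU.good hU.zero (b := b) (G := γ.erase b) (S := N)
    (fun b' hb' hm => hN.out b' (hγ (mem_of_mem_erase hb')) b hm (hγ hb))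
    (B := ((D:ℝ) * D) ^ n * M) (D := D) (mul_nonneg (pow_nonneg (mul_nonneg hD0 hD0) _) hM0)
    (N b) hbN (hN.dB b (hγ hb))
    (by
      intro A' hA' c hc hcA a ha haA hac
      have st := St.start hN hγ (k := 1 + n) hb hc ha (Ne.symm hac) hA' hcA haA (S := N)
        (fun _ _ => Subset.refl _)
      rw [← vl_one_eq]
      exact ind_bound μ hN hγ hg hU.good hU.zero (g := fun _ => 1) (BM.const 1) (z := a) le_rfl
        hM0 (fun h p T G S st' => by
          rw [vl_one_eq]
          exact st'.base μ hN hγ hg hk hU hn hσ) n 1 c [b] _ _ N rfl le_rfl st)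
  rw [phi_eq μ hU.good N hb]
  refine key.trans ?_
  have h1 : ((N b).card : ℝ) ≤ D := by exact_mod_cast hN.dB b (hγ hb)
  calc ((N b).card : ℝ) * (D * (((D:ℝ) * D) ^ n * M))
      ≤ D * (D * (((D:ℝ) * D) ^ n * M)) := by
        apply mul_le_mul_of_nonneg_right h1
        positivity
    _ = (2 * (D:ℝ) ^ 2) ^ (1 + n) * σ ^ (γ.card - (1 + n)) * ck μ U (1 + n) := by
        rw [hM]
        ring

theorem phig_aux {N : V → Finset V} {B γ : Finset V} {D : ℕ} (hN : Bip N B D)
    (hU : Ker μ U κ η) (hγ : γ ⊆ B) {k : ℕ} (hg : GC N γ k) {g : Ω → ℝ} (hgm : BM g)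
    (hg0 : ∫ s, g s ∂μ = 0) {a : V} (ha : a ∉ B) {n : ℕ} (hn : 1 + n ≤ k) {M : ℝ} (hM0 : 0 ≤ M)
    (hM : ∀ h p T G S, St N γ k (1 + n) h p a T G S → |vl μ U (pf U g h p a T) G S| ≤ M) :
    |phig μ U N g a γ| ≤ D * (D * (((D:ℝ) * D) ^ n * M)) := by
  have hD0 : (0:ℝ) ≤ (D:ℝ) := Nat.cast_nonneg _
  have hB0 : 0 ≤ ((D:ℝ) * D) ^ n * M := mul_nonneg (pow_nonneg (mul_nonneg hD0 hD0) _) hM0
  rw [phig_eq μ hU.good]
  have haγ : a ∉ γ := fun h => ha (hγ h)
  have key := vl_bound μ hU.good hU.zero (P := fun x : V → Ω => g (x a))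
    (hgm.comp (measurable_pi_apply a)) (h := a) (G := γ) (B := ((D:ℝ) * D) ^ n * M) (D := D) hB0
    (by
      intro b hb x w
      have : a ≠ b := fun e => haγ (e ▸ hb)
      simp only [Function.update_of_ne this]) haγ _ N rfl
    (fun b hb b' hb' hm => hN.out b' (hγ hb') b hm (hγ hb))
    (fun b hb => hN.dB b (hγ hb))
    (fun S' _ hS' => vl_zero_g μ hU.good hgm hg0 hS')
    (by
      intro S' hS' b hb hh A' hA' c hc hcA
      rw [ex_g]
      have hSN : S' b ⊆ N b := hS' b hb
      have st := St.start hN hγ (k := k) hb (hSN (mem_of_mem_erase hc)) (hSN hh)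
        (ne_of_mem_erase hc) (hA'.trans ((erase_subset _ _).trans hSN)) hcA
        (fun hm => (ne_of_mem_erase (hA' hm)) rfl) (S := S')
        (fun b' hb' => hS' b' (mem_of_mem_erase hb'))
      exact ind_bound μ hN hγ hg hU.good hU.zero hgm hn hM0 hM n 1 c [b] _ _ S' rfl le_rfl st)
  refine key.trans ?_
  have hcount : ((γ.filter (fun b => a ∈ N b)).card : ℝ) ≤ D := by
    exact_mod_cast le_trans (card_le_card (filter_subset_filter _ hγ)) (hN.dA a)
  exact mul_le_mul_of_nonneg_right hcount (mul_nonneg hD0 hB0)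

/-- M5f: polymer bound with a marked vertex -/
theorem phig_bound {N : V → Finset V} {B γ : Finset V} {D : ℕ} (hN : Bip N B D)
    (hU : Ker μ U κ η) {σ : ℝ} (hn : Num D κ η σ) (hσ : 0 < σ)
    (hγ : γ ⊆ B) {k : ℕ} (hk : 2 ≤ k) (hg : GC N γ k) {g : Ω → ℝ} (hgm : BM g)
    (hg0 : ∫ s, g s ∂μ = 0) {a : V} (ha : a ∉ B) :
    |phig μ U N g a γ| ≤ (2 * D ^ 2) ^ ((k + 1) / 2) * σ ^ (γ.card - (k + 1) / 2) *
      Real.sqrt (ck μ U k) * Real.sqrt (∫ s, g s ^ 2 ∂μ) := by
  obtain ⟨n, hj⟩ : ∃ n, (k + 1) / 2 = 1 + n := ⟨(k + 1) / 2 - 1, by omega⟩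
  have hA := Real.sqrt_nonneg (ck μ U k)
  have hB := Real.sqrt_nonneg (∫ s, g s ^ 2 ∂μ)
  have key := phig_aux μ hN hU hγ hg hgm hg0 ha (n := n) (by omega)
    (M := 2 ^ ((k + 1) / 2) * σ ^ (γ.card - (k + 1) / 2) *
      (Real.sqrt (ck μ U k) * Real.sqrt (∫ s, g s ^ 2 ∂μ))) (by positivity)
    (by
      intro h p T G S st
      rw [← hj] at st
      exact st.base_g μ hN hγ hg hk hU hn hσ hgm)
  refine key.trans (le_of_eq ?_)
  rw [hj]
  ring

/-- M5g: no cycle, no contribution -/
theorem phig_eq_zero {N : V → Finset V} {B γ : Finset V} {D : ℕ} (hN : Bip N B D)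
    (hU : Ker μ U κ η) (hγ : γ ⊆ B) (hac : (HG N γ).IsAcyclic) {g : Ω → ℝ} (hgm : BM g)
    (hg0 : ∫ s, g s ∂μ = 0) {a : V} (ha : a ∉ B) : phig μ U N g a γ = 0 := by
  have hg : GC N γ (γ.card + 2) := fun v c hc => absurd hc (hac c)
  have key := phig_aux μ hN hU hγ hg hgm hg0 ha (n := γ.card) (by omega) (M := 0) le_rfl
    (by
      intro h p T G S st
      have := st.cd
      omega)
  simp only [mul_zero] at key
  exact abs_eq_zero.mp (le_antisymm key (abs_nonneg _))

end Vale.Agent.P050.Dense
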