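import Vale.Agent.P050.R2.H738.Phi

set_option linter.all false

/-!
# Dense targets: the telescoping step with a general prefactor

`vl P G S = ∫ P ∏_{b ∈ G} Phi (S b)`. Removing the coordinate `h` from all factors `Phi (S b)`,
one factor and one neighbour at a time.
-/

open MeasureTheory Finset

namespace Vale.Agent.P050.R2.H738

variable {V : Type*} [Fintype V] [DecidableEq V] {Ω : Type*} [MeasurableSpace Ω]
variable {U : Sym2 Ω → ℝ} {ε : ℝ}
variable (μ : Measure Ω) [IsProbabilityMeasure μ]

/-- integral with prefactor `P` -/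
noncomputable def vl (U : Sym2 Ω → ℝ) (P : (V → Ω) → ℝ) (G : Finset V) (S : V → Finset V) : ℝ :=
  ∫ x, P x * ∏ b ∈ G, Phi μ U (S b) x ∂(piM V μ)

/-- the coordinate `b` has been attached to `h` -/
noncomputable def md (U : Sym2 Ω → ℝ) (P : (V → Ω) → ℝ) (h b : V) (A : Finset V) (G : Finset V)
    (S : V → Finset V) : ℝ :=
  ∫ x, P x * (two U (x h) (x b) * kp U A x (x b)) *
    ∏ b' ∈ G, Phi μ U (S b') x ∂(piM V μ)

/-- the prefactor after one double step -/
noncomputable def ex (U : Sym2 Ω → ℝ) (P : (V → Ω) → ℝ) (h b i : V) (A : Finset V) :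
    (V → Ω) → ℝ :=
  fun x => two U (x i) (x b) * kp U A x (x b) * (two U (x b) (x h) * P x)

lemma bm_uu (hU : Good U ε) (a b : V) : BM (fun x : V → Ω => two U (x a) (x b)) :=
  hU.bm_two.comp (g := fun x : V → Ω => (x a, x b)) (by fun_prop)

lemma bm_ex (hU : Good U ε) {P : (V → Ω) → ℝ} (hP : BM P) (h b i : V) (A : Finset V) :
    BM (ex U P h b i A) :=
  ((bm_uu hU i b).mul (bm_kp_at hU A b)).mul ((bm_uu hU b h).mul hP)

/-- removing `h` from the factor of `b` -/
lemma vl_split (hU : Good U ε) {P : (V → Ω) → ℝ} (hP : BM P) {h : V}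
    {G : Finset V} {S : V → Finset V} {b : V} (hPb : Ind b P) (hb : b ∈ G) (hh : h ∈ S b)
    (hbh : b ≠ h) (hbS : ∀ b' ∈ G, b ∉ S b') :
    vl μ U P G S = vl μ U P G (Function.update S b ((S b).erase h)) +
      md μ U P h b ((S b).erase h) (G.erase b) S := by
  set R : (V → Ω) → ℝ := fun x => ∏ b' ∈ G.erase b, Phi μ U (S b') x with hR
  have hRb : BM R := bm_prodPhi μ hU _ _
  have e1 : ∀ x : V → Ω, ∏ b' ∈ G, Phi μ U (S b') x = Phi μ U (S b) x * R x := by
    intro x
    rw [hR, mul_prod_erase G (fun b' => Phi μ U (S b') x) hb]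
  have e2 : ∀ x : V → Ω, ∏ b' ∈ G, Phi μ U (Function.update S b ((S b).erase h) b') x =
      Phi μ U ((S b).erase h) x * R x := by
    intro x
    rw [← mul_prod_erase G (fun b' => Phi μ U (Function.update S b ((S b).erase h) b') x) hb]
    simp only [Function.update_self, hR]
    congr 1
    refine prod_congr rfl fun b' hb' => ?_
    rw [Function.update_of_ne (ne_of_mem_erase hb')]
  have hind : Ind b (fun x => P x * R x) := by
    intro x w
    have h1 : P (Function.update x b w) = P x := hPb x w
    have h2 : R (Function.update x b w) = R x :=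
      prodPhi_ind μ (fun b' hb' => hbS b' (mem_of_mem_erase hb')) x w
    simp only [h1, h2]
  have hkb : BM (fun q : (V → Ω) × Ω => two U (q.1 h) q.2 * kp U ((S b).erase h) q.1 q.2) :=
    (bm_two_at hU h).mul (bm_kp hU _)
  have hbS' : b ∉ (S b).erase h := fun hm => hbS b hb (mem_of_mem_erase hm)
  have e3 : md μ U P h b ((S b).erase h) (G.erase b) S =
      ∫ x, (P x * R x) * (∫ y, two U (x h) y * kp U ((S b).erase h) x y ∂μ) ∂(piM V μ) := by
    unfold md
    have hbm : BM (fun x : V → Ω => P x * (two U (x h) (x b) * kp U ((S b).erase h) x (x b)) *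
        R x) :=
      (hP.mul (hkb.comp (g := fun x : V → Ω => (x, x b))
        (measurable_id.prodMk (measurable_pi_apply b)))).mul hRb
    rw [show (fun x : V → Ω => P x *
        (two U (x h) (x b) * kp U ((S b).erase h) x (x b)) *
        ∏ b' ∈ G.erase b, Phi μ U (S b') x) = (fun x : V → Ω => P x *
        (two U (x h) (x b) * kp U ((S b).erase h) x (x b)) * R x) from rfl]
    rw [integral_update μ b hbm]
    congr 1
    ext x
    rw [← integral_const_mul]
    congr 1
    ext y
    have h3 := hind x y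
    simp only at h3
    simp only [Function.update_self, Function.update_of_ne (Ne.symm hbh), kp_update hbS']
    calc P (Function.update x b y) * (two U (x h) y * kp U ((S b).erase h) x y) *
          R (Function.update x b y) = (P (Function.update x b y) * R (Function.update x b y)) *
          (two U (x h) y * kp U ((S b).erase h) x y) := by ring
      _ = _ := by rw [h3]
  rw [e3]
  unfold vl
  simp only [e1, e2]
  have hi1 : Integrable (fun x : V → Ω => P x * (Phi μ U ((S b).erase h) x * R x)) (piM V μ) :=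
    (hP.mul ((bm_Phi μ hU _).mul hRb)).integrable _
  have hi2 : Integrable (fun x : V → Ω => (P x * R x) *
      (∫ y, two U (x h) y * kp U ((S b).erase h) x y ∂μ)) (piM V μ) :=
    ((hP.mul hRb).mul (hkb.integral_right μ)).integrable _
  rw [← integral_add hi1 hi2]
  congr 1
  ext x
  rw [Phi_split μ hU hh]
  ring

/-- attaching one more coordinate -/
lemma md_insert (hU : Good U ε) {P : (V → Ω) → ℝ} (hP : BM P) {h : V}
    {G : Finset V} {S : V → Finset V} {b i : V} {A : Finset V} (hi : i ∉ A) :
    md μ U P h b (insert i A) G S = md μ U P h b A G S + vl μ U (ex U P h b i A) G S := by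
  unfold md vl
  have hkb : BM (fun x : V → Ω => two U (x h) (x b) * kp U A x (x b)) :=
    (((bm_two_at hU h).mul (bm_kp hU A)).comp (g := fun x : V → Ω => (x, x b))
      (measurable_id.prodMk (measurable_pi_apply b)))
  have hi1 : Integrable (fun x : V → Ω => P x *
      (two U (x h) (x b) * kp U A x (x b)) * ∏ b' ∈ G, Phi μ U (S b') x) (piM V μ) :=
    ((hP.mul hkb).mul (bm_prodPhi μ hU G S)).integrable _
  have hi2 : Integrable (fun x : V → Ω =>
      ex U P h b i A x * ∏ b' ∈ G, Phi μ U (S b') x) (piM V μ) :=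
    ((bm_ex hU hP h b i A).mul (bm_prodPhi μ hU G S)).integrable _
  rw [← integral_add hi1 hi2]
  congr 1
  ext x
  rw [kp_insert hi]
  unfold ex
  rw [two_symm U (x b) (x h)]
  ring

/-- nothing attached: zero -/
lemma md_empty (hU : Good U ε) (hz : ∀ s, ∫ t, two U s t ∂μ = 0) {P : (V → Ω) → ℝ} (hP : BM P)
    {h : V} {G : Finset V} {S : V → Finset V} {b : V} (hPb : Ind b P) (hbh : b ≠ h)
    (hbS : ∀ b' ∈ G, b ∉ S b') : md μ U P h b ∅ G S = 0 := by
  unfold md
  have hbm : BM (fun x : V → Ω => P x *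
      (two U (x h) (x b) * kp U ∅ x (x b)) * ∏ b' ∈ G, Phi μ U (S b') x) :=
    (hP.mul (((bm_two_at hU h).mul (bm_kp hU ∅)).comp
      (g := fun x : V → Ω => (x, x b)) (measurable_id.prodMk (measurable_pi_apply b)))).mul
      (bm_prodPhi μ hU G S)
  rw [integral_update μ b hbm]
  have e1 : ∀ (x : V → Ω) (y : Ω), P (Function.update x b y) *
    (two U ((Function.update x b y) h) ((Function.update x b y) b) *
      kp U ∅ (Function.update x b y) ((Function.update x b y) b)) *
    ∏ b' ∈ G, Phi μ U (S b') (Function.update x b y) =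
    (P x * ∏ b' ∈ G, Phi μ U (S b') x) * two U (x h) y := by
    intro x y
    have h1 : P (Function.update x b y) = P x := hPb x y
    have h2 : ∏ b' ∈ G, Phi μ U (S b') (Function.update x b y) = ∏ b' ∈ G, Phi μ U (S b') x :=
      prodPhi_ind μ hbS x y
    rw [h1, h2]
    simp only [Function.update_self, Function.update_of_ne (Ne.symm hbh), kp_empty]
    ring
  simp only [e1, integral_const_mul, hz, mul_zero, integral_zero]

/-- no factor contains the end `h` of the last edge: zero -/
lemma vl_zero (hU : Good U ε) (hz : ∀ s, ∫ t, two U s t ∂μ = 0) {P P0 : (V → Ω) → ℝ}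
    (hP0 : BM P0) {h v : V} (hP : ∀ x, P x = two U (x v) (x h) * P0 x) (hhv : h ≠ v)
    (hi : Ind h P0) {G : Finset V} {S : V → Finset V} (hS : ∀ b ∈ G, h ∉ S b) :
    vl μ U P G S = 0 := by
  unfold vl
  have hbm : BM (fun x : V → Ω => P x * ∏ b' ∈ G, Phi μ U (S b') x) := by
    have : P = fun x => two U (x v) (x h) * P0 x := funext hP
    rw [this]
    exact ((bm_uu hU v h).mul hP0).mul (bm_prodPhi μ hU G S)
  rw [integral_update μ h hbm]
  have e1 : ∀ (x : V → Ω) (y : Ω), P (Function.update x h y) *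
      ∏ b' ∈ G, Phi μ U (S b') (Function.update x h y) =
      (P0 x * ∏ b' ∈ G, Phi μ U (S b') x) * two U (x v) y := by
    intro x y
    have h1 : P0 (Function.update x h y) = P0 x := hi x y
    have h2 : ∏ b' ∈ G, Phi μ U (S b') (Function.update x h y) = ∏ b' ∈ G, Phi μ U (S b') x :=
      prodPhi_ind μ hS x y
    rw [hP, h1, h2]
    simp only [Function.update_self, Function.update_of_ne (Ne.symm hhv)]
    ring
  simp only [e1, integral_const_mul, hz, mul_zero, integral_zero]

/-- no factor contains `h`, and the prefactor is a mean zero function of `x h` -/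
lemma vl_zero_g (hU : Good U ε) {g : Ω → ℝ} (hg : BM g) (hg0 : ∫ s, g s ∂μ = 0) {h : V}
    {G : Finset V} {S : V → Finset V} (hS : ∀ b ∈ G, h ∉ S b) :
    vl μ U (fun x => g (x h)) G S = 0 := by
  unfold vl
  have hbm : BM (fun x : V → Ω => g (x h) * ∏ b' ∈ G, Phi μ U (S b') x) :=
    (hg.comp (measurable_pi_apply h)).mul (bm_prodPhi μ hU G S)
  rw [integral_update μ h hbm]
  have e1 : ∀ (x : V → Ω) (y : Ω), g ((Function.update x h y) h) *
      ∏ b' ∈ G, Phi μ U (S b') (Function.update x h y) =
      (∏ b' ∈ G, Phi μ U (S b') x) * g y := by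
    intro x y
    have h2 : ∏ b' ∈ G, Phi μ U (S b') (Function.update x h y) = ∏ b' ∈ G, Phi μ U (S b') x :=
      prodPhi_ind μ hS x y
    rw [h2, Function.update_self]
    ring
  simp only [e1, integral_const_mul, hg0, mul_zero, integral_zero]

/-- bound for the intermediate integrals -/
lemma md_bound (hU : Good U ε) (hz : ∀ s, ∫ t, two U s t ∂μ = 0) {P : (V → Ω) → ℝ} (hP : BM P)
    {h : V} {G : Finset V} {S : V → Finset V} {b : V} {B : ℝ} (hPb : Ind b P) (hbh : b ≠ h)
    (hbS : ∀ b' ∈ G, b ∉ S b') (A : Finset V)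
    (hB : ∀ A' ⊆ A, ∀ i ∈ A, i ∉ A' → |vl μ U (ex U P h b i A') G S| ≤ B) :
    |md μ U P h b A G S| ≤ A.card * B := by
  induction A using Finset.induction_on with
  | empty =>
    rw [md_empty μ hU hz hP hPb hbh hbS]
    simp
  | insert i A hi ih =>
    rw [md_insert μ hU hP hi]
    have h1 := ih (fun A' hA' j hj hjA' =>
      hB A' (hA'.trans (subset_insert _ _)) j (mem_insert_of_mem hj) hjA')
    have h2 := hB A (subset_insert _ _) i (mem_insert_self _ _) hi
    rw [card_insert_of_notMem hi]
    push_cast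
    calc _ ≤ _ := abs_add_le _ _
      _ ≤ (A.card : ℝ) * B + B := add_le_add h1 h2
      _ = _ := by ring

/-- the step: removing `h` from all factors -/
lemma vl_bound (hU : Good U ε) (hz : ∀ s, ∫ t, two U s t ∂μ = 0) {P : (V → Ω) → ℝ} (hP : BM P)
    {h : V} {G : Finset V} {B : ℝ} {D : ℕ} (hB0 : 0 ≤ B)
    (hPi : ∀ b ∈ G, Ind b P) (hhG : h ∉ G) :
    ∀ (n : ℕ) (S : V → Finset V), (G.filter (fun b => h ∈ S b)).card = n →
      (∀ b ∈ G, ∀ b' ∈ G, b ∉ S b') → (∀ b ∈ G, (S b).card ≤ D) →
      (∀ S' : V → Finset V, (∀ b ∈ G, S' b ⊆ S b) → (∀ b ∈ G, h ∉ S' b) → vl μ U P G S' = 0) →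
      (∀ S' : V → Finset V, (∀ b ∈ G, S' b ⊆ S b) → ∀ b ∈ G, h ∈ S' b →
        ∀ A' ⊆ (S' b).erase h, ∀ i ∈ (S' b).erase h, i ∉ A' →
        |vl μ U (ex U P h b i A') (G.erase b) S'| ≤ B) →
      |vl μ U P G S| ≤ n * (D * B) := by
  intro n
  induction n with
  | zero =>
    intro S hn _ _ h0 _
    rw [card_eq_zero] at hn
    rw [h0 S (fun _ _ => Subset.refl _)]
    · simp
    · intro b hb hhb
      have : b ∈ G.filter (fun b => h ∈ S b) := mem_filter.mpr ⟨hb, hhb⟩
      rw [hn] at this
      exact absurd this (notMem_empty _)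
  | succ n ih =>
    intro S hn hGS hcard h0 hB
    have hne : (G.filter (fun b => h ∈ S b)).Nonempty := by
      rw [← card_pos, hn]; exact Nat.succ_pos n
    obtain ⟨b, hb⟩ := hne
    rw [mem_filter] at hb
    obtain ⟨hbG, hhb⟩ := hb
    have hbS : ∀ b' ∈ G, b ∉ S b' := fun b' hb' => hGS b hbG b' hb'
    have hbh : b ≠ h := fun e => hhG (e ▸ hbG)
    rw [vl_split μ hU hP (hPi b hbG) hbG hhb hbh hbS]
    set S' := Function.update S b ((S b).erase h) with hS'
    have hsub : ∀ b' ∈ G, S' b' ⊆ S b' := by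
      intro b' _
      by_cases e : b' = b
      · subst e
        rw [hS', Function.update_self]
        exact erase_subset _ _
      · rw [hS', Function.update_of_ne e]
    have hfil : G.filter (fun b' => h ∈ S' b') = (G.filter (fun b' => h ∈ S b')).erase b := by
      ext b'
      simp only [mem_filter, mem_erase]
      by_cases e : b' = b
      · subst e
        simp [hS']
      · rw [hS', Function.update_of_ne e]
        tauto
    have h1 := ih S' (by
        rw [hfil, card_erase_of_mem (mem_filter.mpr ⟨hbG, hhb⟩), hn]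
        rfl)
      (fun c hc c' hc' hm => hGS c hc c' hc' (hsub c' hc' hm))
      (fun c hc => (card_le_card (hsub c hc)).trans (hcard c hc))
      (fun S'' hS'' => h0 S'' (fun c hc => (hS'' c hc).trans (hsub c hc)))
      (fun S'' hS'' => hB S'' (fun c hc => (hS'' c hc).trans (hsub c hc)))
    have h2 : |md μ U P h b ((S b).erase h) (G.erase b) S| ≤ ((S b).erase h).card * B := by
      apply md_bound μ hU hz hP (hPi b hbG) hbh
        (fun b' hb' => hbS b' (mem_of_mem_erase hb'))
      intro A' hA' i hi hiA'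
      exact hB S (fun c _ => Subset.refl _) b hbG hhb A' hA' i hi hiA'
    have h3 : (((S b).erase h).card : ℝ) * B ≤ D * B := by
      apply mul_le_mul_of_nonneg_right _ hB0
      exact_mod_cast (card_le_card (erase_subset _ _)).trans (hcard b hbG)
    push_cast
    calc _ ≤ _ := abs_add_le _ _
      _ ≤ (n : ℝ) * (D * B) + D * B := add_le_add h1 (h2.trans h3)
      _ = _ := by ring

end Vale.Agent.P050.R2.H738
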