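import Vale.Agent.P050.R2.H738.Phi

set_option linter.all false

/-!
# Dense targets: the telescoping step

If all one-step extensions of a state are bounded by `B`, then the state itself is bounded by
`D * (D * B)`. Also the first step.
-/

open MeasureTheory Finset

namespace Vale.Agent.P050.R2.H738

variable {V : Type*} [Fintype V] [DecidableEq V] {Ω : Type*} [MeasurableSpace Ω]
variable {U : Sym2 Ω → ℝ} {ε : ℝ}
variable (μ : Measure Ω) [IsProbabilityMeasure μ]

/-- bound for the intermediate integrals -/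
lemma mid_bound (hU : Good U ε) (hz : ∀ s, ∫ t, two U s t ∂μ = 0) {h : V} {p : List V} {z : V}
    {T : V → Finset V} {G : Finset V} {S : V → Finset V} {b : V} {B : ℝ}
    (hbp : b ∉ h :: p ++ [z]) (hbT : ∀ v ∈ p, b ∉ T v) (hbS : ∀ b' ∈ G, b ∉ S b')
    (hhp : h ∉ p) (A : Finset V)
    (hB : ∀ A' ⊆ A, ∀ i ∈ A, i ∉ A' →
      |val μ U i (b :: h :: p) z (Function.update (Function.update T b A') h ∅) G S| ≤ B) :
    |mid μ U h p z T b A G S| ≤ A.card * B := by
  induction A using Finset.induction_on with
  | empty =>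
    rw [mid_empty μ hU hz hbp hbT hbS]
    simp
  | insert i A hi ih =>
    have hbh : b ≠ h := fun e => hbp (by simp [e])
    have hbp' : b ∉ p := fun e => hbp (by simp [e])
    rw [mid_insert μ hU hi hbh hbp' hhp]
    have h1 := ih (fun A' hA' j hj hjA' =>
      hB A' (hA'.trans (subset_insert _ _)) j (mem_insert_of_mem hj) hjA')
    have h2 := hB A (subset_insert _ _) i (mem_insert_self _ _) hi
    rw [card_insert_of_notMem hi]
    push_cast
    calc _ ≤ _ := abs_add_le _ _
      _ ≤ (A.card : ℝ) * B + B := add_le_add h1 h2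
      _ = _ := by ring

/-- the step: removing the head from all factors -/
lemma val_bound (hU : Good U ε) (hz : ∀ s, ∫ t, two U s t ∂μ = 0) {h v : V} {p : List V} {z : V}
    {T : V → Finset V} {G : Finset V} {B : ℝ} {D : ℕ} (hB0 : 0 ≤ B)
    (hh : h ∉ v :: p ++ [z]) (hT : ∀ w ∈ v :: p, h ∉ T w)
    (hGp : ∀ b ∈ G, b ∉ h :: (v :: p) ++ [z]) (hGT : ∀ b ∈ G, ∀ w ∈ v :: p, b ∉ T w) :
    ∀ (n : ℕ) (S : V → Finset V), (G.filter (fun b => h ∈ S b)).card = n →
      (∀ b ∈ G, ∀ b' ∈ G, b ∉ S b') → (∀ b ∈ G, (S b).card ≤ D) →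
      (∀ S' : V → Finset V, (∀ b ∈ G, S' b ⊆ S b) → ∀ b ∈ G, h ∈ S' b →
        ∀ A' ⊆ (S' b).erase h, ∀ i ∈ (S' b).erase h, i ∉ A' →
        |val μ U i (b :: h :: v :: p) z (Function.update (Function.update T b A') h ∅)
          (G.erase b) S'| ≤ B) →
      |val μ U h (v :: p) z T G S| ≤ n * (D * B) := by
  intro n
  induction n with
  | zero =>
    intro S hn _ _ _
    rw [card_eq_zero] at hn
    rw [val_zero μ hU hz hh hT]
    · simp
    · intro b hb hhb
      have : b ∈ G.filter (fun b => h ∈ S b) := mem_filter.mpr ⟨hb, hhb⟩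
      rw [hn] at this
      exact absurd this (notMem_empty _)
  | succ n ih =>
    intro S hn hGS hcard hB
    have hne : (G.filter (fun b => h ∈ S b)).Nonempty := by
      rw [← card_pos, hn]; exact Nat.succ_pos n
    obtain ⟨b, hb⟩ := hne
    rw [mem_filter] at hb
    obtain ⟨hbG, hhb⟩ := hb
    have hbS : ∀ b' ∈ G, b ∉ S b' := fun b' hb' => hGS b hbG b' hb'
    rw [val_split μ hU hbG hhb (hGp b hbG) (hGT b hbG) hbS]
    set S' := Function.update S b ((S b).erase h) with hS'
    have hsub : ∀ b' ∈ G, S' b' ⊆ S b' := by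
      intro b' _
      by_cases e : b' = b
      · subst e
        rw [hS', Function.update_self]
        exact erase_subset _ _
      · rw [hS', Function.update_of_ne e]
    have hfil : G.filter (fun b' => h ∈ S' b') = (G.filter (fun b' => h ∈ S b')).erase b := by
      ext b'
      simp only [mem_filter, mem_erase]
      by_cases e : b' = b
      · subst e
        simp [hS']
      · rw [hS', Function.update_of_ne e]
        tauto
    have h1 := ih S' (by
        rw [hfil, card_erase_of_mem (mem_filter.mpr ⟨hbG, hhb⟩), hn]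
        rfl)
      (fun c hc c' hc' hm => hGS c hc c' hc' (hsub c' hc' hm))
      (fun c hc => (card_le_card (hsub c hc)).trans (hcard c hc))
      (fun S'' hS'' => hB S'' (fun c hc => (hS'' c hc).trans (hsub c hc)))
    have h2 : |mid μ U h (v :: p) z T b ((S b).erase h) (G.erase b) S| ≤
        ((S b).erase h).card * B := by
      apply mid_bound μ hU hz (hGp b hbG) (hGT b hbG)
        (fun b' hb' => hbS b' (mem_of_mem_erase hb'))
        (fun hm => hh (by
          rw [List.cons_append, List.mem_cons]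
          rw [List.mem_cons] at hm
          rcases hm with hm | hm
          · exact Or.inl hm
          · exact Or.inr (List.mem_append_left _ hm)))
      intro A' hA' i hi hiA'
      exact hB S (fun c _ => Subset.refl _) b hbG hhb A' hA' i hi hiA'
    have h3 : (((S b).erase h).card : ℝ) * B ≤ D * B := by
      apply mul_le_mul_of_nonneg_right _ hB0
      exact_mod_cast (card_le_card (erase_subset _ _)).trans (hcard b hbG)
    push_cast
    calc _ ≤ _ := abs_add_le _ _
      _ ≤ (n : ℝ) * (D * B) + D * B := add_le_add h1 (h2.trans h3)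
      _ = _ := by ring

/-! ### the first step -/

/-- the intermediate integrals of the first step -/
noncomputable def mid0 (U : Sym2 Ω → ℝ) (a b : V) (A : Finset V) (G : Finset V)
    (S : V → Finset V) : ℝ :=
  ∫ x, (two U (x a) (x b) * kp U A x (x b)) * ∏ b' ∈ G, Phi μ U (S b') x ∂(piM V μ)

/-- the integrals of the first step -/
noncomputable def val0 (U : Sym2 Ω → ℝ) (A : Finset V) (G : Finset V)
    (S : V → Finset V) : ℝ :=
  ∫ x, Phi μ U A x * ∏ b' ∈ G, Phi μ U (S b') x ∂(piM V μ)

lemma val0_empty (G : Finset V) (S : V → Finset V) : val0 μ U ∅ G S = 0 := by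
  unfold val0
  simp [Phi_empty]

lemma val0_insert (hU : Good U ε) {a b : V} {A : Finset V} {G : Finset V} {S : V → Finset V}
    (ha : a ∉ A) (hab : a ≠ b) (hbA : b ∉ A) (hbS : ∀ b' ∈ G, b ∉ S b') :
    val0 μ U (insert a A) G S = val0 μ U A G S + mid0 μ U a b A G S := by
  set R : (V → Ω) → ℝ := fun x => ∏ b' ∈ G, Phi μ U (S b') x with hR
  have hRb : BM R := bm_prodPhi μ hU _ _
  have hkb : BM (fun q : (V → Ω) × Ω => two U (q.1 a) q.2 * kp U A q.1 q.2) :=
    (bm_two_at hU a).mul (bm_kp hU _)
  have hind : Ind b R := prodPhi_ind μ hbS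
  have e3 : mid0 μ U a b A G S =
      ∫ x, R x * (∫ y, two U (x a) y * kp U A x y ∂μ) ∂(piM V μ) := by
    unfold mid0
    have hbm : BM (fun x : V → Ω => (two U (x a) (x b) * kp U A x (x b)) * R x) :=
      (hkb.comp (g := fun x : V → Ω => (x, x b))
        (measurable_id.prodMk (measurable_pi_apply b))).mul hRb
    rw [show (fun x : V → Ω => (two U (x a) (x b) * kp U A x (x b)) *
        ∏ b' ∈ G, Phi μ U (S b') x) = (fun x : V → Ω =>
        (two U (x a) (x b) * kp U A x (x b)) * R x) from rfl]
    rw [integral_update μ b hbm]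
    congr 1
    ext x
    rw [← integral_const_mul]
    congr 1
    ext y
    have h3 := hind x y
    simp only [Function.update_self, Function.update_of_ne hab, kp_update hbA]
    rw [h3]
    ring
  rw [e3]
  unfold val0
  have hi1 : Integrable (fun x : V → Ω => Phi μ U A x * R x) (piM V μ) :=
    ((bm_Phi μ hU _).mul hRb).integrable _
  have hi2 : Integrable (fun x : V → Ω => R x *
      (∫ y, two U (x a) y * kp U A x y ∂μ)) (piM V μ) :=
    (hRb.mul (hkb.integral_right μ)).integrable _
  rw [← integral_add hi1 hi2]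
  congr 1
  ext x
  rw [Phi_split μ hU (mem_insert_self a A), erase_insert ha]
  simp only [hR]
  ring

lemma mid0_insert (hU : Good U ε) {a b c : V} {A : Finset V} {G : Finset V} {S : V → Finset V}
    (hc : c ∉ A) :
    mid0 μ U a b (insert c A) G S = mid0 μ U a b A G S +
      val μ U c [b] a (Function.update (fun _ => ∅) b A) G S := by
  unfold mid0 val
  have hkb : BM (fun x : V → Ω => two U (x a) (x b) * kp U A x (x b)) :=
    (((bm_two_at hU a).mul (bm_kp hU A)).comp (g := fun x : V → Ω => (x, x b))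
      (measurable_id.prodMk (measurable_pi_apply b)))
  have hi1 : Integrable (fun x : V → Ω =>
      (two U (x a) (x b) * kp U A x (x b)) * ∏ b' ∈ G, Phi μ U (S b') x) (piM V μ) :=
    (hkb.mul (bm_prodPhi μ hU G S)).integrable _
  have hi2 : Integrable (fun x : V → Ω =>
      pathProd U (dec U (Function.update (fun _ => ∅) b A)) c [b] a x *
      ∏ b' ∈ G, Phi μ U (S b') x) (piM V μ) :=
    ((bm_path hU _ _ c a).mul (bm_prodPhi μ hU G S)).integrable _
  rw [← integral_add hi1 hi2]
  congr 1
  ext x
  simp only [pathProd]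
  have e2 : dec U (Function.update (fun _ => ∅) b A) b x (x b) = kp U A x (x b) := by
    simp only [dec, Function.update_self]
  rw [e2, kp_insert hc]
  have e4 : U s(x b, x a) = two U (x a) (x b) := by rw [two_symm]; rfl
  have e5 : U s(x c, x b) = two U (x c) (x b) := rfl
  rw [e4, e5]
  ring

lemma mid0_empty (hU : Good U ε) (hz : ∀ s, ∫ t, two U s t ∂μ = 0) {a b : V} (hab : a ≠ b)
    {G : Finset V} {S : V → Finset V} (hbS : ∀ b' ∈ G, b ∉ S b') :
    mid0 μ U a b ∅ G S = 0 := by
  unfold mid0
  have hbm : BM (fun x : V → Ω =>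
      (two U (x a) (x b) * kp U ∅ x (x b)) * ∏ b' ∈ G, Phi μ U (S b') x) :=
    (((bm_two_at hU a).mul (bm_kp hU ∅)).comp
      (g := fun x : V → Ω => (x, x b)) (measurable_id.prodMk (measurable_pi_apply b))).mul
      (bm_prodPhi μ hU G S)
  rw [integral_update μ b hbm]
  have e1 : ∀ (x : V → Ω) (y : Ω),
      (two U ((Function.update x b y) a) ((Function.update x b y) b) *
        kp U ∅ (Function.update x b y) ((Function.update x b y) b)) *
      ∏ b' ∈ G, Phi μ U (S b') (Function.update x b y) =
      (∏ b' ∈ G, Phi μ U (S b') x) * two U (x a) y := by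
    intro x y
    have h2 : ∏ b' ∈ G, Phi μ U (S b') (Function.update x b y) = ∏ b' ∈ G, Phi μ U (S b') x :=
      prodPhi_ind μ hbS x y
    rw [h2]
    simp only [Function.update_self, Function.update_of_ne hab, kp_empty]
    ring
  simp only [e1]
  simp only [integral_const_mul, hz, mul_zero, integral_zero]

lemma mid0_bound (hU : Good U ε) (hz : ∀ s, ∫ t, two U s t ∂μ = 0) {a b : V} (hab : a ≠ b)
    {G : Finset V} {S : V → Finset V} (hbS : ∀ b' ∈ G, b ∉ S b') {B : ℝ} (A : Finset V)
    (hB : ∀ A' ⊆ A, ∀ c ∈ A, c ∉ A' →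
      |val μ U c [b] a (Function.update (fun _ => ∅) b A') G S| ≤ B) :
    |mid0 μ U a b A G S| ≤ A.card * B := by
  induction A using Finset.induction_on with
  | empty =>
    rw [mid0_empty μ hU hz hab hbS]
    simp
  | insert c A hc ih =>
    rw [mid0_insert μ hU hc]
    have h1 := ih (fun A' hA' j hj hjA' =>
      hB A' (hA'.trans (subset_insert _ _)) j (mem_insert_of_mem hj) hjA')
    have h2 := hB A (subset_insert _ _) c (mem_insert_self _ _) hc
    rw [card_insert_of_notMem hc]
    push_cast
    calc _ ≤ _ := abs_add_le _ _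
      _ ≤ (A.card : ℝ) * B + B := add_le_add h1 h2
      _ = _ := by ring

lemma val0_bound (hU : Good U ε) (hz : ∀ s, ∫ t, two U s t ∂μ = 0) {b : V}
    {G : Finset V} {S : V → Finset V} (hbS : ∀ b' ∈ G, b ∉ S b') {B : ℝ} {D : ℕ} (hB0 : 0 ≤ B)
    (A : Finset V) (hbA : b ∉ A) (hD : A.card ≤ D)
    (hB : ∀ A' ⊆ A, ∀ c ∈ A, c ∉ A' → ∀ a ∈ A, a ∉ A' → a ≠ c →
      |val μ U c [b] a (Function.update (fun _ => ∅) b A') G S| ≤ B) :
    |val0 μ U A G S| ≤ A.card * (D * B) := by
  induction A using Finset.induction_on with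
  | empty =>
    rw [val0_empty]
    simp
  | insert a A ha ih =>
    have hab : a ≠ b := fun e => hbA (e ▸ mem_insert_self a A)
    have hbA' : b ∉ A := fun e => hbA (mem_insert_of_mem e)
    have hD' : A.card ≤ D := (card_le_card (subset_insert _ _)).trans hD
    rw [val0_insert μ hU ha hab hbA' hbS]
    have h1 := ih hbA' hD' (fun A' hA' c hc hcA' a' ha' haA' hne =>
      hB A' (hA'.trans (subset_insert _ _)) c (mem_insert_of_mem hc) hcA' a'
        (mem_insert_of_mem ha') haA' hne)
    have h2 : |mid0 μ U a b A G S| ≤ A.card * B := by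
      apply mid0_bound μ hU hz hab hbS
      intro A' hA' c hc hcA'
      refine hB A' (hA'.trans (subset_insert _ _)) c (mem_insert_of_mem hc) hcA' a
        (mem_insert_self _ _) (fun hm => ha (hA' hm)) ?_
      intro e
      exact ha (e ▸ hc)
    have h3 : (A.card : ℝ) * B ≤ D * B := by
      apply mul_le_mul_of_nonneg_right _ hB0
      exact_mod_cast hD'
    rw [card_insert_of_notMem ha]
    push_cast
    calc _ ≤ _ := abs_add_le _ _
      _ ≤ (A.card : ℝ) * (D * B) + D * B := add_le_add h1 (h2.trans h3)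
      _ = _ := by ring

end Vale.Agent.P050.R2.H738
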