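import Vale.Agent.P050.R2.H738.Gen
import Vale.Agent.P050.R2.H738.Step
import Vale.Agent.P050.R2.H738.Base2
import Vale.Agent.P050.R2.H738.Comb
import Vale.Agent.P050.R2.H300.Basic

set_option linter.all false

/-!
# Dense targets: the polymer bounds `phi_bound`, `phig_bound`, `phig_eq_zero`
-/

open MeasureTheory Finset

namespace Vale.Agent.P050.R2.H738

open Vale.Agent.P050 Vale.Agent.P050.Dense

variable {V : Type*} [Fintype V] [DecidableEq V] {Ω : Type*} [MeasurableSpace Ω]
variable {U : Sym2 Ω → ℝ} {ε : ℝ}

/-- the prefactor of a state -/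
noncomputable def pf (U : Sym2 Ω → ℝ) (g : Ω → ℝ) (h : V) (p : List V) (z : V)
    (T : V → Finset V) : (V → Ω) → ℝ :=
  fun x => g (x z) * pathProd U (dec U T) h p z x

lemma bm_pf (hU : Good U ε) {g : Ω → ℝ} (hg : BM g) (h : V) (p : List V) (z : V)
    (T : V → Finset V) : BM (pf U g h p z T) :=
  (hg.comp (measurable_pi_apply z)).mul (bm_path hU T p h z)

lemma ex_pf (g : Ω → ℝ) {h : V} {p : List V} {z : V} {T : V → Finset V} {b i : V}
    {A : Finset V} (hbh : b ≠ h) (hbp : b ∉ p) (hhp : h ∉ p) :
    ex U (pf U g h p z T) h b i A =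
      pf U g i (b :: h :: p) z (Function.update (Function.update T b A) h ∅) := by
  funext x
  unfold ex pf
  have e1 : pathProd U (dec U (Function.update (Function.update T b A) h ∅)) h p z x =
      pathProd U (dec U T) h p z x := by
    apply pathProd_congr
    intro v hv
    have h1 : v ≠ h := fun e => hhp (e ▸ hv)
    have h2 : v ≠ b := fun e => hbp (e ▸ hv)
    simp only [dec, Function.update_of_ne h1, Function.update_of_ne h2]
  simp only [pathProd, e1]
  have e2 : dec U (Function.update (Function.update T b A) h ∅) b x (x b) = kp U A x (x b) := by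
    simp only [dec, Function.update_of_ne hbh, Function.update_self]
  have e3 : dec U (Function.update (Function.update T b A) h ∅) h x (x h) = 1 := by
    simp only [dec, Function.update_self, kp_empty]
  rw [e2, e3]
  have e4 : U s(x b, x h) = two U (x b) (x h) := rfl
  have e5 : U s(x i, x b) = two U (x i) (x b) := rfl
  rw [e4, e5]
  ring

lemma ex_g (g : Ω → ℝ) {z b i : V} {A : Finset V} :
    ex U (fun x => g (x z)) z b i A =
      pf U g i [b] z (Function.update (fun _ => ∅) b A) := by
  funext x
  unfold ex pf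
  simp only [pathProd]
  have e2 : dec U (Function.update (fun _ => ∅) b A) b x (x b) = kp U A x (x b) := by
    simp only [dec, Function.update_self]
  rw [e2]
  have e4 : U s(x b, x z) = two U (x b) (x z) := rfl
  have e5 : U s(x i, x b) = two U (x i) (x b) := rfl
  rw [e4, e5]
  ring

variable (μ : Measure Ω) [IsProbabilityMeasure μ]

/-- the backward induction: from the states with `2 K` path edges to all earlier states -/
theorem ind_bound {N : V → Finset V} {B γ : Finset V} {D : ℕ} (hN : Bip N B D) (hγ : γ ⊆ B)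
    {k : ℕ} (hgc : GC N γ k) (hU : Good U ε) (hz : ∀ s, ∫ t, two U s t ∂μ = 0) {g : Ω → ℝ}
    (hg : BM g) {z : V} {K : ℕ} (hK : K ≤ k) {M : ℝ} (hM0 : 0 ≤ M)
    (hM : ∀ h p T G S, St N γ k K h p z T G S → |vl μ U (pf U g h p z T) G S| ≤ M) :
    ∀ (n i : ℕ) (h : V) (p : List V) (T : V → Finset V) (G : Finset V) (S : V → Finset V),
      i + n = K → 1 ≤ i → St N γ k i h p z T G S →
      |vl μ U (pf U g h p z T) G S| ≤ ((D:ℝ) * D) ^ n * M := by
  intro n
  induction n with
  | zero =>
    intro i h p T G S hin hi st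
    rw [Nat.add_zero] at hin
    subst hin
    simpa using hM h p T G S st
  | succ n ih =>
    intro i h p T G S hin hi st
    have hik : i < k := by omega
    have hD0 : (0:ℝ) ≤ (D:ℝ) := Nat.cast_nonneg _
    have hB0 : 0 ≤ ((D:ℝ) * D) ^ n * M := mul_nonneg (pow_nonneg (mul_nonneg hD0 hD0) _) hM0
    have hhz : h ≠ z := st.hz hik
    have hbh : ∀ b ∈ G, b ≠ h := fun b hb e => st.hγ (e ▸ st.Gs hb)
    have hbz : ∀ b ∈ G, b ≠ z := fun b hb e => st.zγ (e ▸ st.Gs hb)
    have hbp : ∀ b ∈ G, b ∉ p := fun b hb hm => st.pG b hm hb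
    have hbL : ∀ b ∈ G, b ∉ h :: p ++ [z] := by
      intro b hb hm
      rw [List.cons_append, List.mem_cons, List.mem_append, List.mem_singleton] at hm
      rcases hm with h1 | h1 | h1
      · exact hbh b hb h1
      · exact hbp b hb h1
      · exact hbz b hb h1
    obtain ⟨v, p', rfl⟩ : ∃ v p', p = v :: p' := by
      cases p with
      | nil =>
        have := st.len
        simp at this
        omega
      | cons v p' => exact ⟨v, p', rfl⟩
    have hcount : (G.filter (fun b => h ∈ S b)).card ≤ D := by
      refine le_trans (card_le_card ?_) (hN.dA h)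
      intro b hb
      rw [mem_filter] at hb ⊢
      exact ⟨hγ (st.Gs hb.1), st.SN b hb.1 hb.2⟩
    have key := vl_bound μ hU hz (bm_pf hU hg h (v :: p') z T) (h := h) (G := G)
      (B := ((D:ℝ) * D) ^ n * M) (D := D) hB0
      (by
        intro b hb x w
        unfold pf
        have h1 : pathProd U (dec U T) h (v :: p') z (Function.update x b w) =
            pathProd U (dec U T) h (v :: p') z x :=
          pathProd_ind (D := dec U T) (v :: p') h z
            (fun u hu => kp_ind (st.T_out hN hγ (st.Gs hb))) (hbL b hb) x w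
        rw [h1, Function.update_of_ne (Ne.symm (hbz b hb))])
      (fun hm => st.hγ (st.Gs hm)) _ S rfl
      (fun b hb b' hb' => st.S_out hN hγ hb' (st.Gs hb))
      (fun b hb => (card_le_card (st.SN b hb)).trans (hN.dB b (hγ (st.Gs hb))))
      (by
        intro S' hS' hS'0
        have hhv : h ≠ v := fun e => st.hp (by simp [e])
        have hhp' : h ∉ v :: p' ++ [z] := by
          intro hm
          rw [List.mem_append, List.mem_singleton] at hm
          rcases hm with h1 | h1
          · exact st.hp h1
          · exact hhz h1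
        refine vl_zero μ hU hz
          (P0 := fun x => g (x z) * (kp U (T v) x (x v) * pathProd U (dec U T) v p' z x))
          ((hg.comp (measurable_pi_apply z)).mul ((bm_kp_at hU _ _).mul (bm_path hU T p' v z)))
          (v := v) ?_ hhv ?_ hS'0
        · intro x
          unfold pf
          simp only [pathProd]
          have e4 : U s(x h, x v) = two U (x v) (x h) := by rw [two_symm]; rfl
          rw [e4]
          simp only [dec]
          ring
        · intro x w
          have h1 : pathProd U (dec U T) v p' z (Function.update x h w) =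
              pathProd U (dec U T) v p' z x :=
            pathProd_ind (D := dec U T) p' v z
              (fun u hu => kp_ind (st.hT hik u (List.mem_cons_of_mem _ hu))) hhp' x w
          have h3 : kp U (T v) (Function.update x h w) = kp U (T v) x :=
            kp_update (st.hT hik v List.mem_cons_self) x w
          simp only []
          rw [h1, h3, Function.update_of_ne (Ne.symm hhz), Function.update_of_ne (Ne.symm hhv)])
      (by
        intro S' hS' b hb hh A' hA' c hc hcA
        rw [ex_pf g (hbh b hb) (hbp b hb) st.hp]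
        exact ih (i + 1) c (b :: h :: v :: p') _ (G.erase b) S' (by omega) (by omega)
          (st.step hN hγ hgc hik hb hS' hh hc hA' hcA))
    refine key.trans ?_
    have h1 : ((G.filter (fun b => h ∈ S b)).card : ℝ) ≤ D := by exact_mod_cast hcount
    calc ((G.filter (fun b => h ∈ S b)).card : ℝ) * (D * (((D:ℝ) * D) ^ n * M))
        ≤ D * (D * (((D:ℝ) * D) ^ n * M)) :=
          mul_le_mul_of_nonneg_right h1 (mul_nonneg hD0 hB0)
      _ = _ := by ring

/-! ### conversion of the definitions -/

lemma Phi_eq (hU : Good U 1) (N : V → Finset V) (b : V) (x : V → Ω) :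
    Dense.Phi μ U N ∅ b x = Phi μ U (N b) x := by
  unfold Dense.Phi Phi
  rw [sdiff_empty]
  have h1 : Integrable (fun y => ∏ a ∈ N b, (1 + U s(x a, y))) μ :=
    (bm_prod_at hU (N b) x).integrable _
  rw [integral_sub h1 (integrable_const _)]
  simp [kp, two]

lemma kp_eq (S : Finset V) (x : V → Ω) (y : Ω) : kp U S x y = ∏ a ∈ S, (1 + U s(x a, y)) := rfl

lemma phig_eq (hU : Good U 1) (N : V → Finset V) (g : Ω → ℝ) (a : V) (γ : Finset V) :
    phig μ U N g a γ = vl μ U (fun x => g (x a)) γ N := by
  unfold phig vl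
  simp only [Phi_eq μ hU]

lemma phi_eq (hU : Good U 1) (N : V → Finset V) {γ : Finset V} {b : V} (hb : b ∈ γ) :
    phi μ U N γ = val0 μ U (N b) (γ.erase b) N := by
  unfold phi val0
  simp only [Phi_eq μ hU]
  congr 1
  ext x
  rw [mul_prod_erase γ (fun b' => Phi μ U (N b') x) hb]

section bounds

variable {κ η : ℝ} {N : V → Finset V} {B γ : Finset V} {D : ℕ}

lemma abs_kp_le (hU : Ker μ U κ η) {σ : ℝ} (hn : Num D κ η σ) {S : Finset V} (hS : S.card ≤ D)
    (x : V → Ω) (y : Ω) : |kp U S x y| ≤ 2 := by
  rw [kp_eq, abs_of_nonneg (prod_nonneg' hU S x y)]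
  exact prod_le_two hU hn hS x y

lemma abs_Phi_le2 (hU : Ker μ U κ η) {σ : ℝ} (hn : Num D κ η σ) {S : Finset V} (hS : S.card ≤ D)
    (x : V → Ω) : |Phi μ U S x| ≤ σ := by
  by_cases hV : Nonempty V
  · obtain ⟨b⟩ := hV
    have h1 := abs_Phi_le' μ hU hn (N := fun _ => S) (b := b) hS ∅ x
    rwa [Phi_eq μ hU.good] at h1
  · have : S = ∅ := by
      rw [eq_empty_iff_forall_notMem]
      intro a _
      exact hV ⟨a⟩
    subst this
    rw [Phi_empty, abs_zero]
    exact hn.σ0

variable {k i : ℕ} {h : V} {p : List V} {z : V} {T : V → Finset V} {G : Finset V}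
  {S : V → Finset V}

/-- bounds for the decorations -/
lemma St.kp_le (hN : Bip N B D) (hγ : γ ⊆ B) (hU : Ker μ U κ η) {σ : ℝ} (hn : Num D κ η σ)
    (st : St N γ k i h p z T G S) (v : V) (x : V → Ω) (y : Ω) :
    |kp U (T v) x y| ≤ if v ∈ γ then (2:ℝ) else 1 := by
  by_cases hv : v ∈ γ
  · rw [if_pos hv]
    exact abs_kp_le μ hU hn ((card_le_card (st.TN v hv)).trans (hN.dB v (hγ hv))) x y
  · rw [if_neg hv, st.T0 v hv, kp_empty, abs_one]

lemma St.Phi_le (hN : Bip N B D) (hγ : γ ⊆ B) (hU : Ker μ U κ η) {σ : ℝ} (hn : Num D κ η σ)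
    (st : St N γ k i h p z T G S) : ∀ b ∈ G, ∀ x, |Phi μ U (S b) x| ≤ σ := fun b hb x =>
  abs_Phi_le2 μ hU hn ((card_le_card (st.SN b hb)).trans (hN.dB b (hγ (st.Gs hb)))) x

lemma bgamma_pos (v : V) : 0 < (if v ∈ γ then (2:ℝ) else 1) := by
  split_ifs <;> norm_num

/-- adjacency of a remaining vertex -/
lemma St.adjS (hN : Bip N B D) (hγ : γ ⊆ B) (st : St N γ k i h p z T G S) {b u : V}
    (hb : b ∈ G) (hu : u ∈ S b) : (HG N γ).Adj b u := by
  have huN := st.SN b hb hu
  have hbγ := st.Gs hb
  exact hg_adj.mpr ⟨fun e => hN.out b (hγ hbγ) u huN (hγ (e ▸ hbγ)), Or.inl ⟨hbγ, huN⟩⟩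

/-- a remaining factor contains at most one vertex of the inner path -/
lemma St.inner (hN : Bip N B D) (hγ : γ ⊆ B) (hg : GC N γ k) (st : St N γ k i h p z T G S)
    (hik : i ≤ k) {b u v : V} (hb : b ∈ G) (hu : u ∈ p) (hv : v ∈ p) (huS : u ∈ S b)
    (hvS : v ∈ S b) : u = v := by
  by_contra hne
  cases hp : p with
  | nil => rw [hp] at hu; exact absurd hu List.not_mem_nil
  | cons w p' =>
    have hwγ : w ∈ γ := st.head_mem hp
    have hbp : b ∉ p := fun hm => st.pG b hm hb
    have hu' : u ∈ p' := by
      rw [hp, List.mem_cons] at hu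
      rcases hu with rfl | hu
      · exact absurd huS (st.S_out hN hγ hb hwγ)
      · exact hu
    have hv' : v ∈ p' := by
      rw [hp, List.mem_cons] at hv
      rcases hv with rfl | hv
      · exact absurd hvS (st.S_out hN hγ hb hwγ)
      · exact hv
    have hinf : p' <:+: (h :: p ++ [z]) := ⟨[h, w], [z], by rw [hp]; simp⟩
    have hinf2 : p' <:+: (p ++ [z]) := ⟨[w], [z], by rw [hp]; simp⟩
    have := gc_two hg (chain_sub st.ch hinf) (st.nd.sublist hinf2.sublist) (b := b) (u := u) (v := v)
      (fun hm => hbp (by rw [hp]; exact List.mem_cons_of_mem _ hm)) hu' hv' hne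
      (st.adjS hN hγ hb huS) (st.adjS hN hγ hb hvS)
    have hl := st.len
    rw [hp, List.length_cons] at hl
    omega

lemma vl_one_eq (h : V) (p : List V) (z : V) (T : V → Finset V) (G : Finset V)
    (S : V → Finset V) :
    vl μ U (pf U (fun _ => 1) h p z T) G S = val μ U h p z T G S := by
  unfold vl val pf
  simp only [one_mul]

/-- the states with `2 k` path edges -/
lemma St.base (hN : Bip N B D) (hγ : γ ⊆ B) (hg : GC N γ k) (hk : 2 ≤ k) (hU : Ker μ U κ η)
    {σ : ℝ} (hn : Num D κ η σ) (hσ : 0 < σ) (st : St N γ k k h p z T G S) :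
    |val μ U h p z T G S| ≤ 2 ^ k * σ ^ (γ.card - k) * ck μ U k := by
  have hl := st.len
  have hdrop : p.drop (k - 1) ≠ [] := by
    intro e
    have := congrArg List.length e
    rw [List.length_drop, List.length_nil] at this
    omega
  obtain ⟨m, p2, hm⟩ := List.exists_cons_of_ne_nil hdrop
  set p1 := p.take (k - 1) with hp1
  have hp : p = p1 ++ m :: p2 := by
    rw [hp1, ← hm, List.take_append_drop]
  have hk1 : p1.length + 1 = k := by
    rw [hp1, List.length_take]
    omega
  have hk2 : p2.length + 1 = k := by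
    have := congrArg List.length hp
    simp only [List.length_append, List.length_cons] at this
    omega
  have hGk : G.card = γ.card - k := by
    have := st.cd
    omega
  have hnd := st.nd
  have hinp1 : ∀ v ∈ p1, v ∈ p := fun v hv => by rw [hp]; simp [hv]
  have hinp2 : ∀ v ∈ p2, v ∈ p := fun v hv => by rw [hp]; simp [hv]
  have hinm : m ∈ p := by rw [hp]; simp
  have hbp : ∀ b ∈ G, b ∉ p := fun b hb hm => st.pG b hm hb
  have nd1 : (h :: p1 ++ [m]).Nodup := by
    rw [List.cons_append, List.nodup_cons]
    have hinf : (p1 ++ [m]) <:+: (p ++ [z]) := ⟨[], p2 ++ [z], by rw [hp]; simp⟩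
    refine ⟨?_, hnd.sublist hinf.sublist⟩
    rw [List.mem_append, List.mem_singleton]
    rintro (h1 | h1)
    · exact st.hp (hinp1 h h1)
    · exact st.hp (h1 ▸ hinm)
  have nd2 : (m :: p2 ++ [z]).Nodup := by
    have hinf : (m :: p2 ++ [z]) <:+: (p ++ [z]) := ⟨p1, [], by rw [hp]; simp⟩
    exact hnd.sublist hinf.sublist
  have hndp : p.Nodup := (List.nodup_append.mp hnd).1
  have hzp : z ∉ p := fun hm => (List.nodup_append.mp hnd).2.2 z hm z (by simp) rfl
  have hdisj : ∀ u ∈ p1, u ∉ p2 := by
    intro u hu hu2
    rw [hp] at hndp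
    exact (List.nodup_append.mp hndp).2.2 u hu u (List.mem_cons_of_mem _ hu2) rfl
  have hmem : ∀ u, u ∈ p1 ++ m :: p2 → u ∈ p := fun u hu => by rw [hp]; exact hu
  have key := base_case μ hU.good (h := h) (z := z) (T := T) (G := G) (S := S)
    (β := fun v => if v ∈ γ then (2:ℝ) else 1) hk1 hk2 hσ (fun v => bgamma_pos v)
    (fun v _ x y => st.kp_le μ hN hγ hU hn v x y) (st.Phi_le μ hN hγ hU hn) nd1 nd2 hdisj
    (fun hm => hzp (hinp1 z hm)) (fun hm => st.hp (hinp2 h hm))
    (by
      intro v hv u hu
      rw [List.cons_append, List.mem_cons] at hu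
      rcases hu with rfl | hu
      · apply st.hT'
        rw [hp, List.dropLast_append_of_ne_nil (by simp)]
        exact List.mem_append_left _ hv
      · exact st.J1 u (hmem u hu) v (hinp1 v hv))
    (by
      intro v hv u hu
      rw [List.mem_append, List.mem_singleton] at hu
      rcases hu with hu | rfl
      · exact st.J1 u (hmem u hu) v (hinp2 v hv)
      · apply st.zT'
        rw [hp]
        cases p1 with
        | nil => simpa using hv
        | cons w p1' => simp [hv])
    (by
      intro u hu
      apply st.J1 u _ m hinm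
      rw [List.mem_append] at hu
      rcases hu with hu | hu
      · exact hinp1 u hu
      · exact hinp2 u hu)
    (by
      intro v hv b hb hvS u hu huv huS
      rw [List.cons_append, List.mem_cons] at hu
      rcases hu with rfl | hu
      · have hinf : (u :: p1) <:+: (u :: p ++ [z]) := ⟨[], m :: p2 ++ [z], by rw [hp]; simp⟩
        have hnd' : (u :: p1).Nodup := by
          have : (u :: p1) <:+: (u :: p1 ++ [m]) := ⟨[], [m], by simp⟩
          exact nd1.sublist this.sublist
        have := gc_two hg (chain_sub st.ch hinf) hnd' (b := b) (u := u) (v := v)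
          (by
            rw [List.mem_cons]
            rintro (h1 | h1)
            · exact st.hγ (h1 ▸ st.Gs hb)
            · exact hbp b hb (hinp1 b h1)) List.mem_cons_self (List.mem_cons_of_mem _ hv) huv
          (st.adjS hN hγ hb huS) (st.adjS hN hγ hb hvS)
        simp only [List.length_cons] at this
        omega
      · exact huv (st.inner hN hγ hg le_rfl hb (hmem u hu) (hinp1 v hv) huS hvS))
    (by
      intro v hv b hb hvS u hu huv huS
      rw [List.mem_append, List.mem_singleton] at hu
      rcases hu with hu | rfl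
      · exact huv (st.inner hN hγ hg le_rfl hb (hmem u hu) (hinp2 v hv) huS hvS)
      · have hinf : (p2 ++ [u]) <:+: (h :: p ++ [u]) := ⟨h :: p1 ++ [m], [], by rw [hp]; simp⟩
        have hnd' : (p2 ++ [u]).Nodup := by
          have : (p2 ++ [u]) <:+: (m :: p2 ++ [u]) := ⟨[m], [], by simp⟩
          exact nd2.sublist this.sublist
        have := gc_two hg (chain_sub st.ch hinf) hnd' (b := b) (u := u) (v := v)
          (by
            rw [List.mem_append, List.mem_singleton]
            rintro (h1 | h1)
            · exact hbp b hb (hinp2 b h1)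
            · exact st.zγ (h1 ▸ st.Gs hb)) (by simp) (List.mem_append_left _ hv) huv
          (st.adjS hN hγ hb huS) (st.adjS hN hγ hb hvS)
        simp only [List.length_append, List.length_cons, List.length_nil] at this
        omega)
  rw [← hp, st.cnt, hGk] at key
  exact key

end bounds

end Vale.Agent.P050.R2.H738
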