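import Vale.Agent.P050.Bdl.B1

set_option linter.all false

/-!
# Dense targets: the functions `Phi` and the states of the path expansion

`kp U T x y = ∏_{a ∈ T} (1 + U(x a, y))`, `Phi μ U S x = ∫ kp U S x y dy - 1`.
A state is a decorated path together with the remaining factors `Phi (S b)`, `b ∈ G`;
`val` is its integral. Here: the two telescoping identities and the vanishing terms.
-/

open MeasureTheory Finset

namespace Vale.Agent.P050.R2.H738

variable {V : Type*} [Fintype V] [DecidableEq V] {Ω : Type*} [MeasurableSpace Ω]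
variable {U : Sym2 Ω → ℝ} {ε : ℝ}

/-- product of the kernels `1 + U` over the coordinates in `T` -/
noncomputable def kp (U : Sym2 Ω → ℝ) (T : Finset V) (x : V → Ω) (y : Ω) : ℝ :=
  ∏ a ∈ T, (1 + two U (x a) y)

lemma kp_empty (x : V → Ω) (y : Ω) : kp U ∅ x y = 1 := by simp [kp]

lemma kp_insert {a : V} {T : Finset V} (ha : a ∉ T) (x : V → Ω) (y : Ω) :
    kp U (insert a T) x y = (1 + two U (x a) y) * kp U T x y := by
  unfold kp
  rw [prod_insert ha]

lemma kp_erase {a : V} {T : Finset V} (ha : a ∈ T) (x : V → Ω) (y : Ω) :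
    kp U T x y = (1 + two U (x a) y) * kp U (T.erase a) x y := by
  conv_lhs => rw [← insert_erase ha]
  exact kp_insert (notMem_erase a T) x y

lemma kp_update {v : V} {T : Finset V} (hv : v ∉ T) (x : V → Ω) (w : Ω) :
    kp U T (Function.update x v w) = kp U T x := by
  funext y
  unfold kp
  refine prod_congr rfl fun a ha => ?_
  have : a ≠ v := fun h => hv (h ▸ ha)
  rw [Function.update_of_ne this]

lemma kp_ind {v : V} {T : Finset V} (hv : v ∉ T) : Ind (Ω := Ω) v (kp U T) :=
  fun x w => kp_update hv x w

lemma bm_two_at (hU : Good U ε) (a : V) :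
    BM (fun q : (V → Ω) × Ω => two U (q.1 a) q.2) :=
  hU.bm_two.comp (g := fun q : (V → Ω) × Ω => (q.1 a, q.2))
    (((measurable_pi_apply a).comp measurable_fst).prodMk measurable_snd)

lemma bm_kp (hU : Good U ε) (T : Finset V) :
    BM (fun q : (V → Ω) × Ω => kp U T q.1 q.2) := by
  unfold kp
  exact BM.finprod T fun a _ => (BM.const 1).add (bm_two_at hU a)

lemma bm_kp_at (hU : Good U ε) (T : Finset V) (b : V) :
    BM (fun x : V → Ω => kp U T x (x b)) :=
  (bm_kp hU T).comp (g := fun x : V → Ω => (x, x b)) (measurable_id.prodMk (measurable_pi_apply b))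

variable (μ : Measure Ω) [IsProbabilityMeasure μ]

/-- the local factor -/
noncomputable def Phi (U : Sym2 Ω → ℝ) (S : Finset V) (x : V → Ω) : ℝ :=
  (∫ y, kp U S x y ∂μ) - 1

lemma bm_Phi (hU : Good U ε) (S : Finset V) : BM (Phi μ U S : (V → Ω) → ℝ) := by
  unfold Phi
  exact ((bm_kp hU S).integral_right μ).sub (BM.const 1)

lemma Phi_ind {v : V} {S : Finset V} (hv : v ∉ S) : Ind (Ω := Ω) v (Phi μ U S) := by
  intro x w
  unfold Phi
  rw [kp_update hv]

lemma Phi_empty (x : V → Ω) : Phi μ U ∅ x = 0 := by
  unfold Phi
  simp [kp_empty]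

lemma int_kp (hU : Good U ε) (S : Finset V) (x : V → Ω) : Integrable (fun y => kp U S x y) μ :=
  ((bm_kp hU S).comp (g := fun y : Ω => (x, y)) measurable_prodMk_left).integrable _

/-- splitting off the coordinate `h` -/
lemma Phi_split (hU : Good U ε) {h : V} {S : Finset V} (hh : h ∈ S) (x : V → Ω) :
    Phi μ U S x = Phi μ U (S.erase h) x +
      ∫ y, two U (x h) y * kp U (S.erase h) x y ∂μ := by
  have i1 : Integrable (fun y => two U (x h) y * kp U (S.erase h) x y) μ :=
    (((bm_two_at hU h).mul (bm_kp hU (S.erase h))).comp (g := fun y : Ω => (x, y))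
      measurable_prodMk_left).integrable _
  have i2 := int_kp μ hU (S.erase h) x
  unfold Phi
  have e : ∀ y, kp U S x y = kp U (S.erase h) x y + two U (x h) y * kp U (S.erase h) x y := by
    intro y
    rw [kp_erase hh]
    ring
  simp only [e]
  rw [integral_add i2 i1]
  ring

/-! ### paths -/

lemma pathProd_congr {D D' : V → (V → Ω) → Ω → ℝ} (p : List V) (a b : V)
    (h : ∀ v ∈ p, D v = D' v) (x : V → Ω) : pathProd U D a p b x = pathProd U D' a p b x := by
  induction p generalizing a with
  | nil => rfl
  | cons v p ih =>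
    simp only [pathProd]
    rw [ih v (fun w hw => h w (List.mem_cons_of_mem _ hw)), h v List.mem_cons_self]

lemma pathProd_append (D : V → (V → Ω) → Ω → ℝ) (p q : List V) (a m b : V) (x : V → Ω) :
    pathProd U D a (p ++ m :: q) b x =
      pathProd U D a p m x * (D m x (x m) * pathProd U D m q b x) := by
  induction p generalizing a with
  | nil => simp only [List.nil_append, pathProd]; ring
  | cons v p ih =>
    simp only [List.cons_append, pathProd]
    rw [ih]
    ring

/-- decorations given by sets -/
noncomputable abbrev dec (U : Sym2 Ω → ℝ) (T : V → Finset V) : V → (V → Ω) → Ω → ℝ :=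
  fun v => kp U (T v)

/-- the integral attached to a state -/
noncomputable def val (U : Sym2 Ω → ℝ) (h : V) (p : List V) (z : V) (T : V → Finset V)
    (G : Finset V) (S : V → Finset V) : ℝ :=
  ∫ x, pathProd U (dec U T) h p z x * ∏ b ∈ G, Phi μ U (S b) x ∂(piM V μ)

/-- the intermediate integrals: the coordinate `b` has been attached to `h` -/
noncomputable def mid (U : Sym2 Ω → ℝ) (h : V) (p : List V) (z : V) (T : V → Finset V)
    (b : V) (A : Finset V) (G : Finset V) (S : V → Finset V) : ℝ :=
  ∫ x, pathProd U (dec U T) h p z x * (two U (x h) (x b) * kp U A x (x b)) *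
    ∏ b' ∈ G, Phi μ U (S b') x ∂(piM V μ)

lemma bm_path (hU : Good U ε) (T : V → Finset V) (p : List V) (a b : V) :
    BM (pathProd U (dec U T) a p b) :=
  bm_pathProd hU (fun v => bm_kp hU (T v)) p a b

lemma bm_prodPhi (hU : Good U ε) (G : Finset V) (S : V → Finset V) :
    BM (fun x : V → Ω => ∏ b ∈ G, Phi μ U (S b) x) :=
  BM.finprod G fun b _ => bm_Phi μ hU (S b)

lemma prodPhi_ind {v : V} {G : Finset V} {S : V → Finset V} (hv : ∀ b ∈ G, v ∉ S b) :
    Ind (Ω := Ω) v (fun x : V → Ω => ∏ b ∈ G, Phi μ U (S b) x) := by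
  intro x w
  refine prod_congr rfl fun b hb => ?_
  exact Phi_ind μ (hv b hb) x w

/-- removing `h` from the factor of `b` -/
lemma val_split (hU : Good U ε) {h : V} {p : List V} {z : V} {T : V → Finset V}
    {G : Finset V} {S : V → Finset V} {b : V} (hb : b ∈ G) (hh : h ∈ S b)
    (hbp : b ∉ h :: p ++ [z]) (hbT : ∀ v ∈ p, b ∉ T v) (hbS : ∀ b' ∈ G, b ∉ S b') :
    val μ U h p z T G S =
      val μ U h p z T G (Function.update S b ((S b).erase h)) +
      mid μ U h p z T b ((S b).erase h) (G.erase b) S := by
  have hbh : b ≠ h := fun e => hbp (by simp [e])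
  set R : (V → Ω) → ℝ := fun x => ∏ b' ∈ G.erase b, Phi μ U (S b') x with hR
  set P : (V → Ω) → ℝ := pathProd U (dec U T) h p z with hP
  have hPb : BM P := bm_path hU T p h z
  have hRb : BM R := bm_prodPhi μ hU _ _
  have e1 : ∀ x : V → Ω, ∏ b' ∈ G, Phi μ U (S b') x = Phi μ U (S b) x * R x := by
    intro x
    rw [hR, mul_prod_erase G (fun b' => Phi μ U (S b') x) hb]
  have e2 : ∀ x : V → Ω, ∏ b' ∈ G, Phi μ U (Function.update S b ((S b).erase h) b') x =
      Phi μ U ((S b).erase h) x * R x := by
    intro x
    rw [← mul_prod_erase G (fun b' => Phi μ U (Function.update S b ((S b).erase h) b') x) hb]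
    simp only [Function.update_self, hR]
    congr 1
    refine prod_congr rfl fun b' hb' => ?_
    rw [Function.update_of_ne (ne_of_mem_erase hb')]
  have hind : Ind b (fun x => P x * R x) := by
    intro x w
    have h1 : P (Function.update x b w) = P x :=
      pathProd_ind (D := dec U T) p h z (fun v hv => kp_ind (hbT v hv)) hbp x w
    have h2 : R (Function.update x b w) = R x :=
      prodPhi_ind μ (fun b' hb' => hbS b' (mem_of_mem_erase hb')) x w
    simp only [h1, h2]
  have hkb : BM (fun q : (V → Ω) × Ω => two U (q.1 h) q.2 * kp U ((S b).erase h) q.1 q.2) :=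
    (bm_two_at hU h).mul (bm_kp hU _)
  have hbS' : b ∉ (S b).erase h := fun hm => hbS b hb (mem_of_mem_erase hm)
  -- the middle term
  have e3 : mid μ U h p z T b ((S b).erase h) (G.erase b) S =
      ∫ x, (P x * R x) * (∫ y, two U (x h) y * kp U ((S b).erase h) x y ∂μ) ∂(piM V μ) := by
    unfold mid
    have hbm : BM (fun x : V → Ω => P x * (two U (x h) (x b) * kp U ((S b).erase h) x (x b)) *
        R x) :=
      (hPb.mul (hkb.comp (g := fun x : V → Ω => (x, x b))
        (measurable_id.prodMk (measurable_pi_apply b)))).mul hRb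
    rw [show (fun x : V → Ω => pathProd U (dec U T) h p z x *
        (two U (x h) (x b) * kp U ((S b).erase h) x (x b)) *
        ∏ b' ∈ G.erase b, Phi μ U (S b') x) = (fun x : V → Ω => P x *
        (two U (x h) (x b) * kp U ((S b).erase h) x (x b)) * R x) from rfl]
    rw [integral_update μ b hbm]
    congr 1
    ext x
    rw [← integral_const_mul]
    congr 1
    ext y
    have h3 := hind x y
    simp only at h3
    simp only [Function.update_self, Function.update_of_ne (Ne.symm hbh), kp_update hbS']
    calc P (Function.update x b y) * (two U (x h) y * kp U ((S b).erase h) x y) *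
          R (Function.update x b y) = (P (Function.update x b y) * R (Function.update x b y)) *
          (two U (x h) y * kp U ((S b).erase h) x y) := by ring
      _ = _ := by rw [h3]
  rw [e3]
  unfold val
  simp only [e1, e2]
  have hi1 : Integrable (fun x : V → Ω => P x * (Phi μ U ((S b).erase h) x * R x)) (piM V μ) :=
    (hPb.mul ((bm_Phi μ hU _).mul hRb)).integrable _
  have hi2 : Integrable (fun x : V → Ω => (P x * R x) *
      (∫ y, two U (x h) y * kp U ((S b).erase h) x y ∂μ)) (piM V μ) :=
    ((hPb.mul hRb).mul (hkb.integral_right μ)).integrable _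
  rw [← integral_add hi1 hi2]
  congr 1
  ext x
  rw [Phi_split μ hU hh]
  ring

/-- attaching one more coordinate -/
lemma mid_insert (hU : Good U ε) {h : V} {p : List V} {z : V} {T : V → Finset V}
    {G : Finset V} {S : V → Finset V} {b i : V} {A : Finset V} (hi : i ∉ A) (hbh : b ≠ h)
    (hbp : b ∉ p) (hhp : h ∉ p) :
    mid μ U h p z T b (insert i A) G S = mid μ U h p z T b A G S +
      val μ U i (b :: h :: p) z (Function.update (Function.update T b A) h ∅) G S := by
  unfold mid val
  have hkb : BM (fun x : V → Ω => two U (x h) (x b) * kp U A x (x b)) :=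
    (((bm_two_at hU h).mul (bm_kp hU A)).comp (g := fun x : V → Ω => (x, x b))
      (measurable_id.prodMk (measurable_pi_apply b)))
  have hi1 : Integrable (fun x : V → Ω => pathProd U (dec U T) h p z x *
      (two U (x h) (x b) * kp U A x (x b)) * ∏ b' ∈ G, Phi μ U (S b') x) (piM V μ) :=
    (((bm_path hU T p h z).mul hkb).mul (bm_prodPhi μ hU G S)).integrable _
  have hi2 : Integrable (fun x : V → Ω =>
      pathProd U (dec U (Function.update (Function.update T b A) h ∅)) i (b :: h :: p) z x *
      ∏ b' ∈ G, Phi μ U (S b') x) (piM V μ) :=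
    ((bm_path hU _ _ i z).mul (bm_prodPhi μ hU G S)).integrable _
  rw [← integral_add hi1 hi2]
  congr 1
  ext x
  have e1 : pathProd U (dec U (Function.update (Function.update T b A) h ∅)) h p z x =
      pathProd U (dec U T) h p z x := by
    apply pathProd_congr
    intro v hv
    have h1 : v ≠ h := fun e => hhp (e ▸ hv)
    have h2 : v ≠ b := fun e => hbp (e ▸ hv)
    simp only [dec, Function.update_of_ne h1, Function.update_of_ne h2]
  simp only [pathProd, e1]
  have e2 : dec U (Function.update (Function.update T b A) h ∅) b x (x b) = kp U A x (x b) := by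
    simp only [dec, Function.update_of_ne hbh, Function.update_self]
  have e3 : dec U (Function.update (Function.update T b A) h ∅) h x (x h) = 1 := by
    simp only [dec, Function.update_self, kp_empty]
  rw [e2, e3, kp_insert hi]
  have e4 : U s(x b, x h) = two U (x h) (x b) := by rw [two_symm]; rfl
  have e5 : U s(x i, x b) = two U (x i) (x b) := rfl
  rw [e4, e5]
  ring

/-- nothing attached: zero -/
lemma mid_empty (hU : Good U ε) (hz : ∀ s, ∫ t, two U s t ∂μ = 0) {h : V} {p : List V} {z : V}
    {T : V → Finset V} {G : Finset V} {S : V → Finset V} {b : V}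
    (hbp : b ∉ h :: p ++ [z]) (hbT : ∀ v ∈ p, b ∉ T v) (hbS : ∀ b' ∈ G, b ∉ S b') :
    mid μ U h p z T b ∅ G S = 0 := by
  have hbh : b ≠ h := fun e => hbp (by simp [e])
  unfold mid
  have hbm : BM (fun x : V → Ω => pathProd U (dec U T) h p z x *
      (two U (x h) (x b) * kp U ∅ x (x b)) * ∏ b' ∈ G, Phi μ U (S b') x) :=
    ((bm_path hU T p h z).mul (((bm_two_at hU h).mul (bm_kp hU ∅)).comp
      (g := fun x : V → Ω => (x, x b)) (measurable_id.prodMk (measurable_pi_apply b)))).mul
      (bm_prodPhi μ hU G S)
  rw [integral_update μ b hbm]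
  have e : ∀ x : V → Ω, (∫ y, pathProd U (dec U T) h p z (Function.update x b y) *
      (two U ((Function.update x b y) h) ((Function.update x b y) b) *
        kp U ∅ (Function.update x b y) ((Function.update x b y) b)) *
      ∏ b' ∈ G, Phi μ U (S b') (Function.update x b y) ∂μ) = 0 := by
    intro x
    have e1 : ∀ y, pathProd U (dec U T) h p z (Function.update x b y) *
      (two U ((Function.update x b y) h) ((Function.update x b y) b) *
        kp U ∅ (Function.update x b y) ((Function.update x b y) b)) *
      ∏ b' ∈ G, Phi μ U (S b') (Function.update x b y) =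
      (pathProd U (dec U T) h p z x * ∏ b' ∈ G, Phi μ U (S b') x) * two U (x h) y := by
      intro y
      have h1 : pathProd U (dec U T) h p z (Function.update x b y) =
          pathProd U (dec U T) h p z x :=
        pathProd_ind (D := dec U T) p h z (fun v hv => kp_ind (hbT v hv)) hbp x y
      have h2 : ∏ b' ∈ G, Phi μ U (S b') (Function.update x b y) = ∏ b' ∈ G, Phi μ U (S b') x :=
        prodPhi_ind μ hbS x y
      rw [h1, h2]
      simp only [Function.update_self, Function.update_of_ne (Ne.symm hbh), kp_empty]
      ring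
    simp only [e1]
    rw [integral_const_mul, hz, mul_zero]
  simp only [e, integral_zero]

/-- no factor contains `h`: zero -/
lemma val_zero (hU : Good U ε) (hz : ∀ s, ∫ t, two U s t ∂μ = 0) {h v : V} {p : List V} {z : V}
    {T : V → Finset V} {G : Finset V} {S : V → Finset V}
    (hh : h ∉ v :: p ++ [z]) (hT : ∀ w ∈ v :: p, h ∉ T w) (hS : ∀ b ∈ G, h ∉ S b) :
    val μ U h (v :: p) z T G S = 0 := by
  have hhv : h ≠ v := fun e => hh (by simp [e])
  unfold val
  have hbm : BM (fun x : V → Ω => pathProd U (dec U T) h (v :: p) z x *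
      ∏ b' ∈ G, Phi μ U (S b') x) := (bm_path hU T _ h z).mul (bm_prodPhi μ hU G S)
  rw [integral_update μ h hbm]
  have e : ∀ x : V → Ω, (∫ y, pathProd U (dec U T) h (v :: p) z (Function.update x h y) *
      ∏ b' ∈ G, Phi μ U (S b') (Function.update x h y) ∂μ) = 0 := by
    intro x
    have e1 : ∀ y, pathProd U (dec U T) h (v :: p) z (Function.update x h y) *
      ∏ b' ∈ G, Phi μ U (S b') (Function.update x h y) =
      (kp U (T v) x (x v) * pathProd U (dec U T) v p z x * ∏ b' ∈ G, Phi μ U (S b') x) *
        two U (x v) y := by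
      intro y
      have h1 : pathProd U (dec U T) v p z (Function.update x h y) =
          pathProd U (dec U T) v p z x :=
        pathProd_ind (D := dec U T) p v z
          (fun w hw => kp_ind (hT w (List.mem_cons_of_mem _ hw))) hh x y
      have h2 : ∏ b' ∈ G, Phi μ U (S b') (Function.update x h y) = ∏ b' ∈ G, Phi μ U (S b') x :=
        prodPhi_ind μ hS x y
      have h3 : kp U (T v) (Function.update x h y) = kp U (T v) x :=
        kp_update (hT v List.mem_cons_self) x y
      have h0 : pathProd U (dec U T) h (v :: p) z (Function.update x h y) =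
          two U (x v) y * kp U (T v) x (x v) * pathProd U (dec U T) v p z x := by
        rw [← h1, ← h3]
        simp only [pathProd, Function.update_self, Function.update_of_ne (Ne.symm hhv)]
        have e4 : U s(y, x v) = two U (x v) y := by rw [two_symm]; rfl
        rw [e4]
      rw [h0, h2]
      ring
    simp only [e1]
    rw [integral_const_mul, hz, mul_zero]
  simp only [e, integral_zero]

end Vale.Agent.P050.R2.H738
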